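import Vale.Agent.P354PH.Wt
import Vale.Agent.P354XI.Mult

/-!
Weights for the multiplier estimates: products and elementary factors.
-/

open scoped ContDiff
open Set

namespace Vale.Agent.P354PH

open Vale.Agent.P354XT Vale.Agent.P354XT.Fld Vale.Agent.P354XI

variable {S : Set (ℝ × ℝ)} {rI Rs : ℝ} {ψ G bd ψ' G' bd' : ℝ × ℝ → ℝ} {e : ℝ → ℝ}

theorem fd_mul (h : ContDiff ℝ ∞ ψ) (h' : ContDiff ℝ ∞ ψ') (p v : ℝ × ℝ) :
    fderiv ℝ (fun p => ψ p * ψ' p) p v = ψ p * fderiv ℝ ψ' p v + ψ' p * fderiv ℝ ψ p v := by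
  rw [fderiv_fun_mul (h.differentiable (by simp) p) (h'.differentiable (by simp) p)]
  simp

theorem dec_mul (h : Dec S rI Rs ψ G bd) (h' : Dec S rI Rs ψ' G' bd') :
    Dec S rI Rs (fun p => ψ p * ψ' p) (fun p => ψ p * G' p + ψ' p * G p)
      fun p => ψ p * bd' p + ψ' p * bd p where
  s1 := h.s1.mul h'.s1
  s2 := (h.s1.mul h'.s2).add (h'.s1.mul h.s2)
  s3 := (h.s1.mul h'.s3).add (h'.s1.mul h.s3)
  pos p hp := mul_nonneg (h.pos p hp) (h'.pos p hp)
  dec p hp := by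
    obtain ⟨a, b, c, a0, b0, c0, e, hb, hc, e1, e2⟩ := h.dec p hp
    obtain ⟨a', b', c', a0', b0', c0', e', hb', hc', e1', e2'⟩ := h'.dec p hp
    have q := h.pos p hp
    have q' := h'.pos p hp
    have k : ∀ {x x' y y' : ℝ}, |x| ≤ y → |x'| ≤ y' → |ψ p * x' + ψ' p * x| ≤ ψ p * y' + ψ' p * y :=
      fun hx hx' => (abs_add_le _ _).trans (add_le_add
        (by rw [abs_mul, abs_of_nonneg q]; exact mul_le_mul_of_nonneg_left hx' q)
        (by rw [abs_mul, abs_of_nonneg q']; exact mul_le_mul_of_nonneg_left hx q'))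
    refine ⟨ψ p * a' + ψ' p * a, ψ p * b' + ψ' p * b, ψ p * c' + ψ' p * c, by positivity,
      by positivity, by positivity, by rw [e, e']; ring, fun z => ?_, fun z => ?_, ?_, ?_⟩
    · by_contra w
      rw [not_not.1 (mt hb w), not_not.1 (mt hb' w)] at z
      simp at z
    · by_contra w
      rw [not_not.1 (mt hc w), not_not.1 (mt hc' w)] at z
      simp at z
    · rw [fd_mul h.s1 h'.s1]
      exact (le_of_eq (congrArg _ (by ring))).trans (k e1 e1')
    · rw [fd_mul h.s1 h'.s1]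
      exact (le_of_eq (congrArg _ (by ring))).trans (k e2 e2')

theorem Dec.G_pos (h : Dec S rI Rs ψ G bd) {p : ℝ × ℝ} (hp : p ∈ S) : 0 ≤ G p := by
  obtain ⟨a, b, c, a0, b0, c0, e, -⟩ := h.dec p hp
  rw [e]; positivity

theorem Dec.bd_pos (h : Dec S rI Rs ψ G bd) {p : ℝ × ℝ} (hp : p ∈ S) : 0 ≤ bd p := by
  obtain ⟨a, b, c, -, -, -, -, -, -, e, -⟩ := h.dec p hp
  exact (abs_nonneg _).trans e

/-- A decreasing function of the time. -/
theorem dec_tdn (he : ContDiff ℝ ∞ e) (e0 : ∀ t, 0 ≤ e t) (e1 : ∀ t, deriv e t ≤ 0) :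
    Dec S rI Rs (fun p => e p.1) (fun p => -deriv e p.1) fun _ => 0 where
  s1 := he.comp contDiff_fst
  s2 := ((sm_der he).comp contDiff_fst).neg
  s3 := contDiff_const
  pos p _ := e0 _
  dec p _ := ⟨-deriv e p.1, 0, 0, neg_nonneg.2 (e1 _), le_rfl, le_rfl, by ring, fun z => (z rfl).elim,
    fun z => (z rfl).elim, by simp [fd_fst he], by simp [fd_fst he]⟩

/-- An increasing function of the time. -/
theorem dec_tup (he : ContDiff ℝ ∞ e) (e0 : ∀ t, 0 ≤ e t) (e1 : ∀ t, 0 ≤ deriv e t) :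
    Dec S rI Rs (fun p => e p.1) (fun _ => 0) fun p => deriv e p.1 where
  s1 := he.comp contDiff_fst
  s2 := contDiff_const
  s3 := (sm_der he).comp contDiff_fst
  pos p _ := e0 _
  dec p _ := ⟨0, 0, 0, le_rfl, le_rfl, le_rfl, by ring, fun z => (z rfl).elim,
    fun z => (z rfl).elim, by simp [fd_fst he, abs_of_nonneg (e1 _)], by simp [fd_fst he, e1]⟩

/-- An increasing function of the radius which is constant above rI. -/
theorem dec_ch (he : ContDiff ℝ ∞ e) (e0 : ∀ t, 0 ≤ e t) (e1 : ∀ t, 0 ≤ deriv e t)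
    (e2 : ∀ r, rI < r → deriv e r = 0) :
    Dec S rI Rs (fun p => e p.2) (fun p => deriv e p.2) fun _ => 0 where
  s1 := he.comp contDiff_snd
  s2 := (sm_der he).comp contDiff_snd
  s3 := contDiff_const
  pos p _ := e0 _
  dec p _ := ⟨0, deriv e p.2, 0, le_rfl, e1 _, le_rfl, by ring,
    fun z => not_lt.1 fun k => z (e2 _ k), fun z => (z rfl).elim, by simp [fd_snd he],
    by simp [fd_snd he]⟩

/-- A decreasing function of the radius. -/
theorem dec_rdn (he : ContDiff ℝ ∞ e) (e0 : ∀ t, 0 ≤ e t) (e1 : ∀ t, deriv e t ≤ 0) :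
    Dec S rI Rs (fun p => e p.2) (fun _ => 0) fun p => -deriv e p.2 where
  s1 := he.comp contDiff_snd
  s2 := contDiff_const
  s3 := ((sm_der he).comp contDiff_snd).neg
  pos p _ := e0 _
  dec p _ := ⟨0, 0, 0, le_rfl, le_rfl, le_rfl, by ring, fun z => (z rfl).elim,
    fun z => (z rfl).elim, by simp [fd_snd he, e1], by simp [fd_snd he, abs_of_nonpos (e1 _)]⟩

theorem fd_cone (he : ContDiff ℝ ∞ e) (t0 : ℝ) (p v : ℝ × ℝ) :
    fderiv ℝ (fun p : ℝ × ℝ => e (p.2 + p.1 - t0)) p v = deriv e (p.2 + p.1 - t0) * (v.2 + v.1) := by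
  have k : HasFDerivAt (fun p : ℝ × ℝ => e (p.2 + p.1 - t0)) _ p :=
    (he.differentiable (by simp) (p.2 + p.1 - t0)).hasDerivAt.comp_hasFDerivAt p
      (((hasFDerivAt_snd (𝕜 := ℝ)).add (hasFDerivAt_fst (𝕜 := ℝ))).sub_const t0)
  rw [k.fderiv]
  simp [mul_add]

theorem sm_cone (he : ContDiff ℝ ∞ e) (t0 : ℝ) :
    ContDiff ℝ ∞ fun p : ℝ × ℝ => e (p.2 + p.1 - t0) :=
  he.comp ((contDiff_snd.add contDiff_fst).sub contDiff_const)

/-- A decreasing function of t + r. -/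
theorem dec_cone (he : ContDiff ℝ ∞ e) (e0 : ∀ t, 0 ≤ e t) (e1 : ∀ t, deriv e t ≤ 0) (t0 : ℝ)
    (e2 : ∀ p ∈ S, p.2 < Rs → deriv e (p.2 + p.1 - t0) = 0) :
    Dec S rI Rs (fun p => e (p.2 + p.1 - t0)) (fun p => -deriv e (p.2 + p.1 - t0)) fun _ => 0 where
  s1 := sm_cone he t0
  s2 := (sm_cone (sm_der he) t0).neg
  s3 := contDiff_const
  pos p _ := e0 _
  dec p hp := ⟨0, 0, -deriv e (p.2 + p.1 - t0), le_rfl, le_rfl, neg_nonneg.2 (e1 _), by ring,
    fun z => (z rfl).elim, fun z => not_lt.1 fun k => z (by rw [e2 p hp k, neg_zero]),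
    by simp [fd_cone he], by simp [fd_cone he]⟩

theorem up_mono {a b : ℝ} (h : a < b) : Monotone (up a b) := fun x y e =>
  Real.smoothTransition.monotone (div_le_div_of_nonneg_right (by linarith) (by linarith))

theorem up_der {a b : ℝ} (h : a < b) (t : ℝ) : 0 ≤ deriv (up a b) t := (up_mono h).deriv_nonneg

theorem dn_der_eq (a b t : ℝ) : deriv (dn a b) t = -deriv (up a b) t := deriv_const_sub 1

theorem dn_der {a b : ℝ} (h : a < b) (t : ℝ) : deriv (dn a b) t ≤ 0 := by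
  rw [dn_der_eq]; exact neg_nonpos.2 (up_der h t)

theorem up_der_out {a b : ℝ} (h : a < b) {t : ℝ} (ht : t ∉ Icc a b) : deriv (up a b) t = 0 :=
  der_out (fun _ => up_zero h) (fun _ => up_one h) t ht

theorem dn_der_out {a b : ℝ} (h : a < b) {t : ℝ} (ht : t ∉ Icc a b) : deriv (dn a b) t = 0 := by
  rw [dn_der_eq, up_der_out h ht, neg_zero]

/-- A bound for the slope of the ramps of width w. -/
theorem ex_slope {w : ℝ} (hw : 0 < w) : ∃ B, 1 ≤ B ∧ ∀ a t, deriv (up a (a + w)) t ≤ B := by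
  have k : 0 < 0 + w := by linarith
  obtain ⟨c, hc⟩ := (bb_step (up_sm 0 (0 + w)) (fun _ => up_zero k) (fun _ => up_one k)
    (c := 1) fun t => abs_le.2 ⟨by linarith [up_nonneg 0 (0 + w) t], up_le _ _ t⟩).2 1
  refine ⟨max 1 c, le_max_left _ _, fun a t => le_max_of_le_right ?_⟩
  have : up a (a + w) = fun t => up 0 (0 + w) (t - a) := funext fun t => by simp [up]
  rw [this, der_sh]
  exact (le_abs_self _).trans (hc _)

end Vale.Agent.P354PH
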