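import Vale.Agent.P354PH.Main
import Vale.Agent.P354XI.MOut

/-!
The estimate of all jets near the black hole, without hypotheses.
-/

namespace Vale.Agent.P354PH

theorem phys_ok (σ : Bool) : P354XT.PHYS σ := phys P354XI.uni P354XI.red σ

end Vale.Agent.P354PH
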