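import Vale.Agent.P354PH.Cut

/-!
Comparison of the weights, and the terms with a large constant.
-/

open scoped ContDiff
open Set

namespace Vale.Agent.P354PH

open Vale.Agent.P354XT Vale.Agent.P354XT.Fld Vale.Agent.P354XI Vale.Agent.P354XI.Ibp

variable {A : Type} [CommRing A] [Algebra ℂ A] {Φ : Fld A} {D : Dat A} {M a : ℝ} {n k : ℕ}
  {Cf rm rI R0 R1 eps : ℝ}

/-- The weight of the first q slabs up to the radius 3 R1. -/
noncomputable def ew (D : Dat A) (R1 : ℝ) (q : ℕ) : ℝ × ℝ → ℝ := tp (tE D q) (D.wf R1)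

theorem tE_dn (κ : ℕ) (t : ℝ) :
    tE D (κ + 1) t = Real.smoothTransition (t - D.t1) - 1 + dn (D.t1 + κ + 1) (D.t1 + κ + 1 + 1) t := by
  rw [tE, dn, up, add_sub_cancel_left, div_one, Nat.cast_add, Nat.cast_one,
    show t - D.t1 - (κ + 1) = t - (D.t1 + κ + 1) by ring]
  ring

theorem tE_mono {p q : ℕ} (e : p ≤ q) (t : ℝ) : tE D p t ≤ tE D q t := by
  rw [tE_eq, tE_eq]
  exact Finset.sum_le_sum_of_subset_of_nonneg (Finset.range_mono e) fun _ _ _ => bp_nonneg _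

theorem tE_early {q : ℕ} (e : 3 ≤ q) {t : ℝ} (ht : t ≤ D.t1 + 3) : tE D q t = tE D 3 t := by
  have : (3 : ℝ) ≤ q := by exact_mod_cast e
  rw [tE, tE, Real.smoothTransition.zero_of_nonpos (x := t - D.t1 - q) (by linarith),
    Real.smoothTransition.zero_of_nonpos (x := t - D.t1 - (3 : ℕ)) (by push_cast; linarith)]

theorem nh_eq {w δ a b x : ℝ} (hw : 0 < w) (hδ : 0 < δ) {p : ℝ × ℝ} (h1 : a + w ≤ p.1)
    (h2 : p.1 ≤ b) (h3 : p.2 ≤ x) : nh D w δ a b x p = D.ch p.2 := by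
  simp only [nh, mw]
  rw [up_one (by linarith) h1, dn_one (by linarith) h2, dn_one (by linarith) h3]
  ring

theorem lw_eq {w a b z : ℝ} (hw : 0 < w) {p : ℝ × ℝ} (h1 : a + w ≤ p.1) (h2 : p.2 + p.1 - b ≤ z) :
    lw D w a b z p = dn b (b + 1) p.1 * D.ch p.2 := by
  simp only [lw, mw]
  rw [up_one (by linarith) h1, dn_one (by linarith) h2]
  ring

namespace Fm
variable (F : Fam Φ D M a n k Cf rm rI R0 R1 eps) (hR : 0 < R1)
include F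

theorem nh_le {w δ a b a' b' x : ℝ} (hw : 0 < w) (h1 : a' + w ≤ a) (h2 : b + w ≤ b')
    (p : ℝ × ℝ) : nh D w δ a b x p ≤ 1 * nh D w δ a' b' x p := by
  have c := mul_nonneg (ch_pos F p.2) (dn_nonneg x (x + δ) p.2)
  simp only [nh, mw, one_mul]
  rw [mul_assoc, mul_assoc (up a' _ _ * _)]
  refine mul_le_mul_of_nonneg_right ?_ c
  by_cases e : p.1 ∈ Icc a (b + w)
  · exact (ct_le w a b p.1).trans (ct_one hw (h1.trans e.1) (e.2.trans h2)).ge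
  · exact (ct_out hw e).le.trans (ct_pos w a' b' p.1)

theorem wn_le (r : ℝ) : D.wn R0 r ≤ D.ch r := mul_le_of_le_one_right (ch_pos F r) (dn_le _ _ _)
theorem wn_pos (r : ℝ) : 0 ≤ D.wn R0 r := mul_nonneg (ch_pos F r) (dn_nonneg _ _ _)
theorem wn_sm : ContDiff ℝ ∞ (D.wn R0) := F.chs.mul (dn_sm _ _)
theorem wf_sm : ContDiff ℝ ∞ (D.wf R1) := F.chs.mul (dn_sm _ _)
theorem wf_pos (r : ℝ) : 0 ≤ D.wf R1 r := mul_nonneg (ch_pos F r) (dn_nonneg _ _ _)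
omit F in
theorem wn_zero {r : ℝ} (hr : 2 * R0 + 1 ≤ r) : D.wn R0 r = 0 := by
  rw [Dat.wn, dn_zero (by linarith) hr, mul_zero]
theorem wn_out {y : ℝ} (hy : 2 * R0 + 1 ≤ y) (r : ℝ) (hr : r ∉ Icc D.r00 y) : D.wn R0 r = 0 := by
  rcases not_and_or.1 hr with e | e
  · rw [Dat.wn, F.ch0 _ (not_le.1 e).le, zero_mul]
  · exact wn_zero (hy.trans (not_le.1 e).le)

include hR

omit F in
theorem wf_eq {r : ℝ} (hr : r ≤ 3 * R1) : D.wf R1 r = D.ch r := by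
  rw [Dat.wf, dn_one (by linarith) hr, mul_one]

theorem wf_out (r : ℝ) (hr : r ∉ Icc D.r00 (4 * R1)) : D.wf R1 r = 0 := by
  rcases not_and_or.1 hr with e | e
  · rw [Dat.wf, F.ch0 _ (not_le.1 e).le, zero_mul]
  · rw [Dat.wf, dn_zero (by linarith) (not_le.1 e).le, mul_zero]

theorem ew_wb {q : ℕ} (hq : q ≤ D.K + 1) : Wb D D.r00 (4 * R1) (ew D R1 q) :=
  wb_tp (tE_sm q) (wf_sm F) (tE_pos q) (wf_pos F) (tE_out hq) (wf_out F hR)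

theorem ew_pos (q : ℕ) (p : ℝ × ℝ) : 0 ≤ ew D R1 q p := mul_nonneg (tE_pos _ _) (wf_pos F _)

omit F in
theorem ew_eq {q : ℕ} {p : ℝ × ℝ} (h1 : D.t1 + 1 ≤ p.1) (h2 : p.1 ≤ D.t1 + q) (h3 : p.2 ≤ 3 * R1) :
    ew D R1 q p = D.ch p.2 := by rw [ew, tp, tE_one h1 h2, wf_eq hR h3, one_mul]

theorem bw_ew {q : ℕ} {w δ a b x y : ℝ} (hw : 0 < w) (hδ : 0 < δ) (h1 : D.t1 + 1 ≤ a)
    (h2 : b + w ≤ D.t1 + q) (h3 : rI ≤ x) (h4 : y + δ ≤ 3 * R1) (p : ℝ × ℝ) :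
    bw w δ a b x y p ≤ 1 * ew D R1 q p := by
  rw [one_mul]
  exact bw_below hw hδ (ew_pos F hR q) (fun p hp => by
    rw [ew_eq hR (h1.trans hp.1.1) (hp.1.2.trans h2) (hp.2.2.trans h4), F.ch1 _ (h3.trans hp.2.1)])
    p

theorem nh_ew {q : ℕ} {w δ a b x : ℝ} (hw : 0 < w) (hδ : 0 < δ) (h1 : D.t1 + 1 ≤ a)
    (h2 : b + w ≤ D.t1 + q) (h4 : x + δ ≤ 3 * R1) (p : ℝ × ℝ) :
    nh D w δ a b x p ≤ 1 * ew D R1 q p := by
  rw [one_mul]
  by_cases e : p.1 ∈ Icc a (b + w)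
  · by_cases e' : p.2 ≤ x + δ
    · rw [ew_eq hR (h1.trans e.1) (e.2.trans h2) (e'.trans h4)]
      exact (mul_le_of_le_one_right (mul_nonneg (ct_pos w a b p.1) (ch_pos F _)) (dn_le _ _ _)).trans
        (mul_le_of_le_one_left (ch_pos F _) (ct_le w a b p.1))
    · refine le_trans (le_of_eq ?_) (ew_pos F hR q p)
      simp only [nh, mw]
      rw [dn_zero (a := x) (by linarith) (not_le.1 e').le, mul_zero]
  · refine le_trans (le_of_eq ?_) (ew_pos F hR q p)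
    simp only [nh, mw]
    rw [show up a (a + w) p.1 * dn b (b + w) p.1 = 0 from ct_out hw e, zero_mul, zero_mul]

theorem lw_ew {κ : ℕ} {w a z y : ℝ} (hw : 0 < w) (h1 : D.t1 + 1 ≤ a) (hy : y ≤ 3 * R1)
    (v : Wb D D.r00 y (lw D w a (D.t1 + κ + 1) z)) (p : ℝ × ℝ) :
    lw D w a (D.t1 + κ + 1) z p ≤ 1 * ew D R1 (κ + 1) p := by
  rw [one_mul]
  by_cases e : lw D w a (D.t1 + κ + 1) z p = 0
  · rw [e]; exact ew_pos F hR _ p
  have e1 : a ≤ p.1 := by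
    by_contra q
    exact e (by simp only [lw, mw]; rw [up_zero (by linarith) (not_le.1 q).le]; ring)
  rw [ew, tp, tE_dn, wf_eq hR ((v.mem e).2.2.trans hy),
    Real.smoothTransition.one_of_one_le (by linarith), sub_self, zero_add]
  exact (mw_le F _ _ _ _ (dn_nonneg _ _ _)).trans (mul_le_of_le_one_right
    (mul_nonneg (dn_nonneg _ _ _) (ch_pos F _)) (dn_le _ _ _))

/-- The three kinds of terms with a large constant. -/
theorem rest_ge (h : Φ.Is) (he : eps ≤ 1) (m : ℕ) {κ : ℕ} (hκ : κ ≤ D.K) :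
    N Φ (ew D R1 3) (Φ.lv (m + 1) D.f) + N Φ (ew D R1 (κ + 1)) (Φ.lv (m - 1) D.f) +
      N Φ (ew D R1 (κ + 1)) D.rho ≤ D.rest Φ m R1 κ := by
  have s := fun q hq G => (cx F h).sl_sum (q := q) hq (wf_sm F) (wf_pos F) (wf_out F hR) G
  have K2 := F.K2
  rw [ew, ew, ← s 3 (by omega), ← s _ (by omega), ← s _ (by omega), add_assoc,
    ← Finset.sum_add_distrib, Dat.rest]
  refine add_le_add le_rfl (Finset.sum_le_sum fun j hj => ?_)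
  have v := wb_tp (D := D) (bpj_sm j) (wf_sm F) (fun _ => bp_nonneg _) (wf_pos F)
    (bpj_out (by have := Finset.mem_range.1 hj; omega)) (wf_out F hR)
  have p1 := (cx F h).nonneg v F.rpos
  have p2 := (cx F h).nonneg v fun x => h.lv_nonneg x (m + 1) D.f
  rw [← sl_eq h j (wf_sm F)] at p1 p2
  have := mul_nonneg (F.hpos j).1.le p2
  have : D.sl Φ j (D.wf R1) D.rho ≤ D.er Φ R1 j / D.h j :=
    le_div_self p1 (F.hpos j).1 ((F.hpos j).2.trans he)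
  rw [Dat.lo, Dat.Ef]
  linarith

/-- The weights of the bulk terms: early, late and intermediate times. -/
theorem cover {κ : ℕ} (hκ : 3 ≤ κ) (h0 : 2 * R0 + 1 ≤ 3 * R1) {w a : ℝ} (hw : 0 < w) {g : ℝ → ℝ}
    (g0 : ∀ r, 0 ≤ g r) (g1 : ∀ r, g r ≤ D.wn R0 r) {φ : ℝ × ℝ → ℝ} (p0 : ∀ p, 0 ≤ φ p)
    (p1 : ∀ p, 0 ≤ lw D w a (D.t1 + κ + 1) (2 * R0 + 2) p)
    (e : ∀ p : ℝ × ℝ, D.t1 + 3 ≤ p.1 → p.1 ≤ a + w → p.2 ≤ 2 * R0 + 1 → g p.2 ≤ φ p) (p : ℝ × ℝ) :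
    tp (tE D (κ + 1)) g p ≤
      1 * ew D R1 3 p + 1 * lw D w a (D.t1 + κ + 1) (2 * R0 + 2) p + 1 * φ p := by
  have q1 := ew_pos F hR 3 p
  have q2 := p0 p
  have q3 := p1 p
  have q4 := (g1 p.2).trans (wn_le F p.2)
  rw [tp]
  by_cases e0 : 2 * R0 + 1 ≤ p.2
  · rw [le_antisymm ((g1 _).trans (wn_zero e0).le) (g0 _)]; linarith
  by_cases e1 : p.1 ≤ D.t1 + 3
  · rw [tE_early (by omega) e1, ew, tp, wf_eq hR (by linarith)] at *
    linarith [mul_le_mul_of_nonneg_left q4 (tE_pos (D := D) 3 p.1)]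
  by_cases e2 : p.1 ≤ a + w
  · linarith [e p (not_le.1 e1).le e2 (not_le.1 e0).le,
      mul_le_of_le_one_left (g0 p.2) (tE_le (D := D) (κ + 1) p.1)]
  rw [tE_dn, Real.smoothTransition.one_of_one_le (by linarith), sub_self, zero_add]
  by_cases e3 : p.1 ≤ D.t1 + κ + 2
  · rw [lw_eq hw (not_le.1 e2).le (by linarith)]
    linarith [mul_le_mul_of_nonneg_left q4 (dn_nonneg (D.t1 + κ + 1) (D.t1 + κ + 1 + 1) p.1)]
  · rw [dn_zero (by linarith) (by linarith)]; linarith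

omit hR in
theorem cover1 {κ : ℕ} {w a : ℝ} (hw : 0 < w) (ha : a + w ≤ D.t1 + κ)
    (p1 : ∀ p, 0 ≤ lw D w a (D.t1 + κ + 1) (2 * R0 + 2) p) (p : ℝ × ℝ) :
    tp (fun t => bp (t - D.t1 - κ)) (D.wn R0) p ≤ 1 * lw D w a (D.t1 + κ + 1) (2 * R0 + 2) p := by
  rw [tp, one_mul]
  by_cases e0 : 2 * R0 + 1 ≤ p.2
  · rw [wn_zero e0, mul_zero]; exact p1 p
  by_cases e1 : p.1 - D.t1 - κ ∈ Icc (0 : ℝ) 2
  · rw [lw_eq hw (by linarith [e1.1]) (by linarith [e1.2])]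
    refine mul_le_mul ?_ (wn_le F _) (wn_pos F _) (dn_nonneg _ _ _)
    rw [bp, dn, up, add_sub_cancel_left, div_one,
      show p.1 - D.t1 - κ - 1 = p.1 - (D.t1 + κ + 1) by ring]
    exact sub_le_sub_right (Real.smoothTransition.le_one _) _
  · rw [bp_out e1, zero_mul]; exact p1 p

end Fm

/-- The words in T and the axial field. -/
theorem yq_ge {y : ℝ} (h : Cx Φ D y) {e c : ℝ → ℝ} {t2 x x' : ℝ} {U V : Set ℝ} (he : Wg e D.t1 t2 U)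
    (hc : Wg c x x' V) (h1 : t2 ≤ D.t1 + D.K + 2) (h2 : D.r00 ≤ x) (h3 : x' ≤ y) (l : ℕ)
    {w δ a b u v : ℝ} (hw : 0 < w) (hδ : 0 < δ) (hφ : Wb D D.r00 y (bw w δ a b u v))
    (s1 : Icc a (b + w) ⊆ U) (s2 : Icc u (v + δ) ⊆ V) :
    ∑ W ∈ yw l, N Φ (bw w δ a b u v) (Φ.jq 1 (D.f W)) ≤ D.yq Φ l e c ∧ 0 ≤ D.yq Φ l e c := by
  have v := wb_tp (D := D) (x := D.r00) (y := y) he.sm hc.sm he.pos hc.pos
    (fun t ht => he.out t fun q => ht ⟨q.1, q.2.trans h1⟩)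
    fun r hr => hc.out r fun q => hr ⟨h2.trans q.1, q.2.trans h3⟩
  rw [Dat.yq, ← fn_tp h.is he.sm hc.sm]
  refine ⟨Finset.sum_le_sum fun W _ => ?_,
    Finset.sum_nonneg fun W _ => h.nonneg v fun _ => h.is.jq_nonneg⟩
  have := h.w1 (a := 1) (F := Φ.jq 1 (D.f W)) hφ v (fun _ => h.is.jq_nonneg) fun p => by
    rw [one_mul]
    exact bw_below hw hδ v.pos (fun p hp => one_le_mul_of_one_le_of_one_le (he.ge _ (s1 hp.1))
      (hc.ge _ (s2 hp.2))) p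
  rwa [one_mul] at this

theorem stE {Q X Y a b T Z : ℝ} (hQ : 1 ≤ Q) (h : X ≤ Q * (Y + 4 * Q ^ 2 * (a + b))) (h1 : Y ≤ T)
    (h2 : a ≤ Z) (h3 : b ≤ T) (hT : 0 ≤ T) (hZ : 0 ≤ Z) : X ≤ 5 * Q ^ 3 * (T + Z) := by
  have q : 1 ≤ Q ^ 2 := one_le_pow₀ hQ
  refine h.trans ((mul_le_mul_of_nonneg_left (?_ : _ ≤ 5 * Q ^ 2 * (T + Z))
    (by linarith)).trans (le_of_eq (by ring)))
  nlinarith

theorem stU {Q X a b c d e T Z : ℝ} (hQ : 1 ≤ Q) (h : X ≤ Q * (Q * (a + b) + Q * (c + d) + e))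
    (h1 : a + b ≤ T + Z) (h2 : c ≤ T) (h3 : d ≤ T) (h4 : e ≤ T) (hT : 0 ≤ T) (hZ : 0 ≤ Z) :
    X ≤ 5 * Q ^ 3 * (T + Z) := by
  have q : Q ^ 2 ≤ Q ^ 3 := pow_le_pow_right₀ hQ (by norm_num)
  refine h.trans ((mul_le_mul_of_nonneg_left (?_ : _ ≤ 5 * Q * (T + Z))
    (by linarith)).trans ?_)
  · nlinarith
  · nlinarith

theorem stR {Q X a b c d e u T Z : ℝ} (hQ : 1 ≤ Q)
    (h : X ≤ Q * (Q * (Q * (a + b) + Q * (c + d) + u + e) + u + e)) (h1 : a + b + u ≤ 2 * T + Z)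
    (h0 : 0 ≤ a + b) (hu : 0 ≤ u) (h2 : c ≤ T) (h3 : d ≤ T) (h4 : e ≤ T) (hZ : 0 ≤ Z) :
    X ≤ 10 * Q ^ 3 * (T + Z) := by
  have q : 1 ≤ Q ^ 2 := one_le_pow₀ hQ
  have k : Q * (a + b) + Q * (c + d) + u + e ≤ Q * (5 * (T + Z)) := by nlinarith
  refine h.trans ((mul_le_mul_of_nonneg_left (?_ : _ ≤ 10 * Q ^ 2 * (T + Z))
    (by linarith)).trans (le_of_eq (by ring)))
  nlinarith [mul_le_mul_of_nonneg_left k (zero_le_one.trans hQ)]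

end Vale.Agent.P354PH
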