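import Vale.Agent.P354PH.Fam

/-!
The estimates for the family with explicit cut off functions.
-/

open scoped ContDiff
open Set

namespace Vale.Agent.P354PH

open Vale.Agent.P354XT Vale.Agent.P354XT.Fld Vale.Agent.P354XI Vale.Agent.P354XI.Ibp

/-- A cut off function with support in [a, b + w], which is 1 on [a + w, b]. -/
noncomputable def ct (w a b x : ℝ) : ℝ := up a (a + w) x * dn b (b + w) x

/-- B bounds the slope of the ramps of width w. -/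
structure Sl (w B : ℝ) : Prop where
  pos : 0 < w
  one : 1 ≤ B
  le : ∀ a t, deriv (up a (a + w)) t ≤ B

theorem ct_sm (w a b : ℝ) : ContDiff ℝ ∞ (ct w a b) := (up_sm _ _).mul (dn_sm _ _)
theorem ct_pos (w a b x : ℝ) : 0 ≤ ct w a b x := mul_nonneg (up_nonneg _ _ _) (dn_nonneg _ _ _)
theorem ct_le (w a b x : ℝ) : ct w a b x ≤ 1 :=
  mul_le_one₀ (up_le _ _ _) (dn_nonneg _ _ _) (dn_le _ _ _)
theorem ct_out {w a b x : ℝ} (hw : 0 < w) (hx : x ∉ Icc a (b + w)) : ct w a b x = 0 := by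
  rcases not_and_or.1 hx with k | k
  · rw [ct, up_zero (by linarith) (not_le.1 k).le, zero_mul]
  · rw [ct, dn_zero (by linarith) (not_le.1 k).le, mul_zero]
theorem ct_one {w a b x : ℝ} (hw : 0 < w) (h1 : a + w ≤ x) (h2 : x ≤ b) : ct w a b x = 1 := by
  rw [ct, up_one (by linarith) h1, dn_one (by linarith) h2, mul_one]
theorem ct_der {w B : ℝ} (h : Sl w B) (a b x : ℝ) : deriv (ct w a b) x ^ 2 ≤ B ^ 2 := by
  have e : deriv (ct w a b) x = deriv (up a (a + w)) x * dn b (b + w) x +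
      up a (a + w) x * deriv (dn b (b + w)) x :=
    deriv_fun_mul ((up_sm _ _).differentiable (by simp) x) ((dn_sm _ _).differentiable (by simp) x)
  have w0 := h.pos
  have p1 := up_der (a := a) (b := a + w) (by linarith) x
  have p2 := up_der (a := b) (b := b + w) (by linarith) x
  rw [e, dn_der_eq]
  refine sq_le_sq' ?_ ?_
  · nlinarith [mul_nonneg p1 (dn_nonneg b (b + w) x), h.le b x, up_le a (a + w) x]
  · nlinarith [mul_nonneg p2 (up_nonneg a (a + w) x), h.le a x, dn_le b (b + w) x]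

/-- The square of a product of cut off functions. -/
noncomputable def bw (w δ a b x y : ℝ) (p : ℝ × ℝ) : ℝ :=
  tp (ct w a b) (ct δ x y) p * tp (ct w a b) (ct δ x y) p

theorem bw_sm (w δ a b x y : ℝ) : ContDiff ℝ ∞ (bw w δ a b x y) :=
  (tp_sm (ct_sm _ _ _) (ct_sm _ _ _)).mul (tp_sm (ct_sm _ _ _) (ct_sm _ _ _))
theorem bw_pos (w δ a b x y : ℝ) (p : ℝ × ℝ) : 0 ≤ bw w δ a b x y p := mul_self_nonneg _
theorem tc_le (w δ a b x y : ℝ) (p : ℝ × ℝ) : tp (ct w a b) (ct δ x y) p ≤ 1 :=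
  mul_le_one₀ (ct_le _ _ _ _) (ct_pos _ _ _ _) (ct_le _ _ _ _)
theorem bw_le (w δ a b x y : ℝ) (p : ℝ × ℝ) : bw w δ a b x y p ≤ 1 :=
  mul_le_one₀ (tc_le _ _ _ _ _ _ _) (mul_nonneg (ct_pos _ _ _ _) (ct_pos _ _ _ _))
    (tc_le _ _ _ _ _ _ _)
theorem bw_out {w δ a b x y : ℝ} (hw : 0 < w) (hδ : 0 < δ) {p : ℝ × ℝ}
    (hp : p ∉ Icc a (b + w) ×ˢ Icc x (y + δ)) : bw w δ a b x y p = 0 := by
  rcases not_and_or.1 hp with k | k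
  · simp [bw, tp, ct_out hw k]
  · simp [bw, tp, ct_out hδ k]
theorem bw_one {w δ a b x y : ℝ} (hw : 0 < w) (hδ : 0 < δ) {p : ℝ × ℝ} (h1 : a + w ≤ p.1)
    (h2 : p.1 ≤ b) (h3 : x + δ ≤ p.2) (h4 : p.2 ≤ y) : bw w δ a b x y p = 1 := by
  simp [bw, tp, ct_one hw h1 h2, ct_one hδ h3 h4]

/-- A weight which is bounded by 1 is below a weight which is at least 1 on its support. -/
theorem bw_below {w δ a b x y : ℝ} (hw : 0 < w) (hδ : 0 < δ) {ψ : ℝ × ℝ → ℝ} (p0 : ∀ p, 0 ≤ ψ p)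
    (p1 : ∀ p ∈ Icc a (b + w) ×ˢ Icc x (y + δ), 1 ≤ ψ p) (p : ℝ × ℝ) : bw w δ a b x y p ≤ ψ p := by
  by_cases e : p ∈ Icc a (b + w) ×ˢ Icc x (y + δ)
  exacts [(bw_le _ _ _ _ _ _ _).trans (p1 p e), (bw_out hw hδ e).le.trans (p0 p)]

variable {A : Type} [CommRing A] [Algebra ℂ A] {Φ : Fld A} {D : Dat A} {M a : ℝ} {n k : ℕ}
  {Cf rm rI R0 R1 eps : ℝ}

theorem bw_wb {w δ a b x y x' y' : ℝ} (hw : 0 < w) (hδ : 0 < δ) (h1 : D.t1 ≤ a)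
    (h2 : b + w ≤ D.t1 + D.K + 2) (h3 : x' ≤ x) (h4 : y + δ ≤ y') : Wb D x' y' (bw w δ a b x y) :=
  ⟨bw_sm _ _ _ _ _ _, bw_pos _ _ _ _ _ _, fun _ hp => bw_out hw hδ fun e =>
    hp ⟨⟨h1.trans e.1.1, e.1.2.trans h2⟩, h3.trans e.2.1, e.2.2.trans h4⟩⟩

theorem N_smul (h : Φ.Is) (c : ℝ) {φ : ℝ × ℝ → ℝ} (hφ : ContDiff ℝ ∞ φ) (F : A) :
    N Φ (fun p => c * φ p) F = c * N Φ φ F := by
  rw [N, N, ← J_rl, ← mul_assoc, ← h.cst, ← h.mul _ _ contDiff_const hφ]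

/-- The elliptic estimate with given constants. -/
def El (Φ : Fld A) (D : Dat A) (C r2 R0 : ℝ) (m : ℕ) : Prop :=
  ∀ l ≤ m, ∀ φ ψ : ℝ × ℝ → ℝ, ContDiff ℝ ∞ φ → ContDiff ℝ ∞ ψ → (∀ p, 0 ≤ φ p ∧ φ p ≤ ψ p) →
    (∀ p, fderiv ℝ φ p (1, 0) ^ 2 ≤ φ p * ψ p ∧ fderiv ℝ φ p (0, 1) ^ 2 ≤ φ p * ψ p) →
    (∀ p, p ∉ Icc D.t1 (D.t1 + D.K + 2) ×ˢ Icc r2 (3 * R0) → ψ p = 0) →
    N Φ φ (Φ.lv (l + 1) D.f) ≤
      C * (∑ W ∈ yw l, N Φ φ (Φ.jq 1 (D.f W)) + N Φ ψ (Φ.lv l D.f) + N Φ ψ D.rho)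

theorem ell_cut (h : Φ.Is) {C r2 w δ B : ℝ} {m l : ℕ} (H : El Φ D C r2 R0 m) (hl : l ≤ m)
    (hw : Sl w B) (hδ : Sl δ B) (a b x y : ℝ) {ψ : ℝ × ℝ → ℝ} (hψ : Wb D r2 (3 * R0) ψ)
    (p1 : ∀ p ∈ Icc a (b + w) ×ˢ Icc x (y + δ), 1 ≤ ψ p) :
    N Φ (bw w δ a b x y) (Φ.lv (l + 1) D.f) ≤
      C * (∑ W ∈ yw l, N Φ (bw w δ a b x y) (Φ.jq 1 (D.f W)) +
        4 * B ^ 2 * (N Φ ψ (Φ.lv l D.f) + N Φ ψ D.rho)) := by
  have B1 : 1 ≤ 4 * B ^ 2 := by nlinarith [hw.one]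
  have s := tp_sm (ct_sm w a b) (ct_sm δ x y)
  have v := hψ.smul (zero_le_one.trans B1)
  have key : ∀ p q, q ^ 2 ≤ B ^ 2 → (tp (ct w a b) (ct δ x y) p * q +
      tp (ct w a b) (ct δ x y) p * q) ^ 2 ≤ bw w δ a b x y p * (4 * B ^ 2 * ψ p) := fun p q e => by
    have e2 : (tp (ct w a b) (ct δ x y) p * q + tp (ct w a b) (ct δ x y) p * q) ^ 2 =
        bw w δ a b x y p * (4 * q ^ 2) := by rw [bw]; ring
    rw [e2]
    by_cases z : p ∈ Icc a (b + w) ×ˢ Icc x (y + δ)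
    · exact mul_le_mul_of_nonneg_left (by nlinarith [p1 p z]) (bw_pos _ _ _ _ _ _ _)
    · rw [bw_out hw.pos hδ.pos z, zero_mul, zero_mul]
  have := H l hl (bw w δ a b x y) _ (bw_sm _ _ _ _ _ _) v.sm (fun p => ⟨bw_pos _ _ _ _ _ _ _,
    (bw_below hw.pos hδ.pos hψ.pos p1 p).trans (le_mul_of_one_le_left (hψ.pos p) B1)⟩)
    (fun p => ?_) v.out
  · rwa [N_smul h _ hψ.sm, N_smul h _ hψ.sm, add_assoc, ← mul_add] at this
  have d := fun v => fd_mul ((ct_sm w a b).comp contDiff_fst) ((ct_sm δ x y).comp contDiff_snd) p v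
  simp only [Function.comp_def, fd_fst (ct_sm w a b), fd_snd (ct_sm δ x y)] at d
  have q1 := pow_le_one₀ (n := 2) (ct_pos w a b p.1) (ct_le w a b p.1)
  have q2 := pow_le_one₀ (n := 2) (ct_pos δ x y p.2) (ct_le δ x y p.2)
  refine ⟨(fd_mul s s p (1, 0)) ▸ key p _ ?_, (fd_mul s s p (0, 1)) ▸ key p _ ?_⟩
  · rw [show fderiv ℝ (tp (ct w a b) (ct δ x y)) p (1, 0) = _ from d (1, 0)]
    simp only [mul_zero, zero_add, mul_one, mul_pow]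
    nlinarith [ct_der hw a b p.1, sq_nonneg (deriv (ct w a b) p.1)]
  · rw [show fderiv ℝ (tp (ct w a b) (ct δ x y)) p (0, 1) = _ from d (0, 1)]
    simp only [mul_zero, add_zero, mul_one, mul_pow]
    nlinarith [ct_der hδ x y p.2, sq_nonneg (deriv (ct δ x y) p.2)]

/-- The weight of the multiplier estimates. -/
noncomputable def mw (D : Dat A) (a a' b b' : ℝ) (ζ : ℝ × ℝ → ℝ) (p : ℝ × ℝ) : ℝ :=
  up a a' p.1 * dn b b' p.1 * D.ch p.2 * ζ p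

theorem dec4 (F : Fam Φ D M a n k Cf rm rI R0 R1 eps) {a a' b b' y Rs : ℝ} (ha : a < a')
    (hb : b < b') {ζ Gz bz : ℝ × ℝ → ℝ} (d4 : Dec (Icc a b' ×ˢ Icc D.r00 y) rI Rs ζ Gz bz)
    (z : ∀ p : ℝ × ℝ, a ≤ p.1 → y < p.2 → ζ p = 0 ∧ Gz p = 0 ∧ bz p = 0) :
    ∃ G bd, Dec (Icc a b' ×ˢ Icc D.r00 y) rI Rs (mw D a a' b b' ζ) G bd ∧
      (∀ p, p ∉ Icc a b' ×ˢ Icc D.r00 y → mw D a a' b b' ζ p = 0 ∧ G p = 0 ∧ bd p = 0) ∧
      ∀ p, bd p = up a a' p.1 * dn b b' p.1 * D.ch p.2 * bz p +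
        ζ p * D.ch p.2 * dn b b' p.1 * deriv (up a a') p.1 := by
  refine ⟨_, _, dec_mul (dec_mul (dec_mul (dec_tup (up_sm a a') (up_nonneg a a') (up_der ha))
    (dec_tdn (dn_sm b b') (dn_nonneg b b') (dn_der hb))) (Fm.dch F)) d4, fun p hp => ?_,
    fun p => by ring⟩
  by_cases e1 : p.1 < a
  · simp [mw, up_zero ha e1.le, up_der_out ha fun e => not_le.2 e1 e.1]
  by_cases e2 : b' < p.1
  · simp [mw, dn_zero hb e2.le, dn_der_out hb fun e => not_le.2 e2 e.2]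
  by_cases e3 : p.2 < D.r00
  · simp [mw, F.ch0 _ e3.le, Fm.ch_der F fun e => not_le.2 e3 e.1]
  have e4 : y < p.2 := not_le.1 fun e => hp ⟨⟨not_lt.1 e1, not_lt.1 e2⟩, not_lt.1 e3, e⟩
  simp [mw, z p (not_lt.1 e1) e4]

theorem mw_le (F : Fam Φ D M a n k Cf rm rI R0 R1 eps) (a a' b b' : ℝ) {ζ : ℝ × ℝ → ℝ} {p : ℝ × ℝ}
    (z0 : 0 ≤ ζ p) : mw D a a' b b' ζ p ≤ dn b b' p.1 * D.ch p.2 * ζ p := by
  rw [mw, mul_assoc, mul_assoc, mul_assoc]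
  exact mul_le_of_le_one_left (mul_nonneg (dn_nonneg _ _ _) (mul_nonneg (Fm.ch_pos F _) z0))
    (up_le _ _ _)

/-- The angular estimate and the red shift estimate with given constants. -/
def Ea (Φ : Fld A) (D : Dat A) (C R0 : ℝ) (m : ℕ) : Prop :=
  ∀ l ≤ m, ∀ φ, Wb D D.r00 (3 * R0) φ → N Φ φ (Φ.lv (l + 1) D.f) ≤
    C * (∑ j ∈ Finset.range (l + 1), ∑ W ∈ yw (l - j),
      N Φ φ (Φ.jq 1 (D.f (List.replicate j 1 ++ W))) + N Φ φ (Φ.lv l D.f) + N Φ φ D.rho)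

def Er (Φ : Fld A) (D : Dat A) (C rI rb : ℝ) (m : ℕ) : Prop :=
  ∀ S, IsCompact S → S ⊆ bx D rb → ∀ ψ G bd, Dec S rI (rb + 1) ψ G bd →
    (∀ p, p ∉ S → ψ p = 0 ∧ G p = 0 ∧ bd p = 0) → ∀ l, 2 ≤ l → l ≤ m →
    ∑ j ∈ Finset.range (l + 1), ∑ W ∈ yw (l - j),
      N Φ ψ (Φ.jq 1 (D.f (List.replicate j 1 ++ W))) ≤ C * Zr Φ D ψ bd l

/-- The weight near the horizon. -/
noncomputable def nh (D : Dat A) (w δ a b x : ℝ) : ℝ × ℝ → ℝ :=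
  mw D a (a + w) b (b + w) fun p => dn x (x + δ) p.2

theorem near (F : Fam Φ D M a n k Cf rm rI R0 R1 eps) (h : Φ.Is) (hR : 3 * R0 ≤ 4 * R1)
    {C rb w δ B : ℝ} {m l : ℕ} (hC : 0 ≤ C) (H1 : Ea Φ D C R0 m) (H2 : Er Φ D C rI rb m)
    (l2 : 2 ≤ l) (hl : l ≤ m) (hw : Sl w B) (hδ : Sl δ B) (a b x : ℝ) (h1 : D.t1 ≤ a)
    (h2 : b + w ≤ D.t1 + D.K + 2) (h3 : x + δ ≤ rb) (h4 : x + δ ≤ 3 * R0) {φ χ : ℝ × ℝ → ℝ}
    (w1 : Wb D D.r00 (4 * R1) φ) (w2 : Wb D D.r00 (4 * R1) χ)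
    (e1 : ∀ p ∈ Icc a (a + w) ×ˢ Iic (x + δ), D.ch p.2 ≤ φ p)
    (e2 : ∀ p ∈ Icc a (b + w) ×ˢ Icc x (x + δ), 1 ≤ χ p) :
    Wb D D.r00 (3 * R0) (nh D w δ a b x) ∧ N Φ (nh D w δ a b x) (Φ.lv (l + 1) D.f) ≤
      C * (C * (B * (N Φ φ (Φ.lv (l + 1) D.f) + N Φ χ (Φ.lv (l + 1) D.f)) +
        B * (N Φ φ D.rho + N Φ χ D.rho) + N Φ (nh D w δ a b x) (Φ.lv l D.f) +
        N Φ (nh D w δ a b x) D.rho) + N Φ (nh D w δ a b x) (Φ.lv l D.f) +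
        N Φ (nh D w δ a b x) D.rho) := by
  have k1 : a < a + w := by linarith [hw.pos]
  have k2 : b < b + w := by linarith [hw.pos]
  have k3 : x < x + δ := by linarith [hδ.pos]
  obtain ⟨G, bd, d, out, e⟩ := dec4 F k1 k2 (y := x + δ) (Rs := rb + 1)
    (dec_rdn (dn_sm x (x + δ)) (dn_nonneg _ _) (dn_der k3)) fun p _ hp =>
      ⟨dn_zero k3 hp.le, rfl, by rw [dn_der_out k3 fun e => not_le.2 hp e.2, neg_zero]⟩
  have sub : ∀ {y}, x + δ ≤ y → Icc a (b + w) ×ˢ Icc D.r00 (x + δ) ⊆ bx D y := fun hy _ hp =>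
    ⟨⟨h1.trans hp.1.1, hp.1.2.trans h2⟩, hp.2.1, hp.2.2.trans hy⟩
  have v1 := wb_of (sub h4) d.s1 d.pos fun p hp => (out p hp).1
  have v3 := (wb_of (sub h4) d.s3 (fun _ => Dec.bd_pos d) fun p hp => (out p hp).2.2).mono le_rfl hR
  have B0 := zero_le_one.trans hw.one
  have le : ∀ p, bd p ≤ B * φ p + B * χ p := fun p => by
    by_cases z : p ∈ Icc a (b + w) ×ˢ Icc D.r00 (x + δ)
    swap
    · rw [(out p z).2.2]; exact add_nonneg (mul_nonneg B0 (w1.pos p)) (mul_nonneg B0 (w2.pos p))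
    rw [e, add_comm, mul_comm B, mul_comm B]
    have c0 := Fm.ch_pos F p.2
    refine add_le_add ?_ ?_
    · by_cases z1 : p.1 ∈ Icc a (a + w)
      · refine mul_le_mul (le_trans ?_ (e1 p ⟨z1, z.2.2⟩)) (hw.le _ _) (up_der k1 _) (w1.pos p)
        exact (mul_le_of_le_one_right (mul_nonneg (dn_nonneg _ _ _) c0) (dn_le _ _ _)).trans
          (mul_le_of_le_one_left c0 (dn_le _ _ _))
      · rw [up_der_out k1 z1, mul_zero]; exact mul_nonneg (w1.pos p) B0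
    · by_cases z1 : p.2 ∈ Icc x (x + δ)
      · rw [dn_der_eq, neg_neg]
        exact mul_le_mul ((mul_le_one₀ (ct_le w a b p.1) c0 (Fm.ch_le F _)).trans (e2 p ⟨z.1, z1⟩))
          (hδ.le _ _) (up_der k3 _) (w2.pos p)
      · rw [dn_der_out k3 z1, neg_zero, mul_zero]; exact mul_nonneg (w2.pos p) B0
  have y1 := (Fm.cx F h).w2 v3 w1 w2 (fun x => h.lv_nonneg x (l + 1) D.f) le
  have y2 := (Fm.cx F h).w2 v3 w1 w2 F.rpos le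
  have y3 := H2 _ (isCompact_Icc.prod isCompact_Icc) (sub h3) _ _ _ d out l l2 hl
  refine ⟨v1, (H1 l hl _ v1).trans (mul_le_mul_of_nonneg_left (add_le_add_left (add_le_add_left
    (y3.trans (mul_le_mul_of_nonneg_left ?_ hC)) _) _) hC)⟩
  rw [Zr, nh]
  linarith

/-- The estimate in unit time with given constants. -/
def Eu (Φ : Fld A) (D : Dat A) (C rI Rs R0 : ℝ) (m : ℕ) : Prop :=
  ∀ t0 S, IsCompact S → S ⊆ bx D (3 * R0) → (∀ p ∈ S, t0 ≤ p.1 ∧ p.1 ≤ t0 + 3) →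
    ∀ ψ G bd, Dec S rI Rs ψ G bd → (∀ p, p ∉ S → ψ p = 0 ∧ G p = 0 ∧ bd p = 0) →
    N Φ ψ (Φ.lv (m + 1) D.f) ≤ C * (N Φ bd (Φ.lv (m + 1) D.f) + N Φ bd D.rho + N Φ ψ D.rho)

/-- The weight of the last slabs. -/
noncomputable def lw (D : Dat A) (w a b z : ℝ) : ℝ × ℝ → ℝ :=
  mw D a (a + w) b (b + 1) fun p => dn z (z + 1) (p.2 + p.1 - b)

theorem last (F : Fam Φ D M a n k Cf rm rI R0 R1 eps) (h : Φ.Is) (hR : 3 * R0 ≤ 4 * R1)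
    {C Rs w B : ℝ} {m : ℕ} (hC : 0 ≤ C) (H : Eu Φ D C rI Rs R0 m) (hw : Sl w B) (a b z : ℝ)
    (h1 : D.t1 ≤ a) (h2 : b + 1 ≤ D.t1 + D.K + 2) (h3 : b ≤ a + 2) (h4 : z + 3 ≤ 3 * R0)
    (h5 : Rs + 1 ≤ z) {φ χ : ℝ × ℝ → ℝ} (w1 : Wb D D.r00 (4 * R1) φ) (w2 : Wb D D.r00 (4 * R1) χ)
    (e1 : ∀ p ∈ Icc a (a + w) ×ˢ Iic (z + 3), D.ch p.2 ≤ φ p + χ p) :
    Wb D D.r00 (3 * R0) (lw D w a b z) ∧ N Φ (lw D w a b z) (Φ.lv (m + 1) D.f) ≤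
      C * (B * (N Φ φ (Φ.lv (m + 1) D.f) + N Φ χ (Φ.lv (m + 1) D.f)) +
        B * (N Φ φ D.rho + N Φ χ D.rho) + N Φ (lw D w a b z) D.rho) := by
  have k1 : a < a + w := by linarith [hw.pos]
  have k2 : b < b + 1 := by linarith
  have k3 : z < z + 1 := by linarith
  obtain ⟨G, bd, d, out, e⟩ := dec4 F k1 k2 (y := z + 3) (Rs := Rs)
    (dec_cone (dn_sm z (z + 1)) (dn_nonneg _ _) (dn_der k3) b fun p hp q =>
      dn_der_out k3 fun e => by linarith [e.1, hp.1.2]) fun p q hp =>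
      ⟨dn_zero k3 (by linarith), by rw [dn_der_out k3 fun e => by linarith [e.2], neg_zero], rfl⟩
  have sub : Icc a (b + 1) ×ˢ Icc D.r00 (z + 3) ⊆ bx D (3 * R0) := fun _ hp =>
    ⟨⟨h1.trans hp.1.1, hp.1.2.trans h2⟩, hp.2.1, hp.2.2.trans h4⟩
  have v1 := wb_of sub d.s1 d.pos fun p hp => (out p hp).1
  have v3 := (wb_of sub d.s3 (fun _ => Dec.bd_pos d) fun p hp => (out p hp).2.2).mono le_rfl hR
  have B0 := zero_le_one.trans hw.one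
  have le : ∀ p, bd p ≤ B * φ p + B * χ p := fun p => by
    have p0 := add_nonneg (w1.pos p) (w2.pos p)
    rw [← mul_add]
    by_cases q : p ∈ Icc a (b + 1) ×ˢ Icc D.r00 (z + 3)
    swap
    · rw [(out p q).2.2]; exact mul_nonneg B0 p0
    rw [e, mul_zero, zero_add, mul_comm B]
    have c0 := Fm.ch_pos F p.2
    by_cases z1 : p.1 ∈ Icc a (a + w)
    · refine mul_le_mul (le_trans ?_ (e1 p ⟨z1, q.2.2⟩)) (hw.le _ _) (up_der k1 _) p0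
      exact (mul_le_of_le_one_right (mul_nonneg (dn_nonneg _ _ _) c0) (dn_le _ _ _)).trans
        (mul_le_of_le_one_left c0 (dn_le _ _ _))
    · rw [up_der_out k1 z1, mul_zero]; exact mul_nonneg p0 B0
  have y1 := (Fm.cx F h).w2 v3 w1 w2 (fun x => h.lv_nonneg x (m + 1) D.f) le
  have y2 := (Fm.cx F h).w2 v3 w1 w2 F.rpos le
  refine ⟨v1, (H a _ (isCompact_Icc.prod isCompact_Icc) sub
    (fun p hp => ⟨hp.1.1, by linarith [hp.1.2]⟩) _ _ _ d out).trans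
    (mul_le_mul_of_nonneg_left ?_ hC)⟩
  rw [lw]
  linarith

end Vale.Agent.P354PH
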