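import Vale.Agent.P354PH.Pw

/-!
The red shift estimate and the estimate in unit time for the family.
-/

open scoped ContDiff
open Set

namespace Vale.Agent.P354PH

open Vale.Agent.P354XT Vale.Agent.P354XT.Fld Vale.Agent.P354XI Vale.Agent.P354XI.Ibp

variable {A : Type} [CommRing A] [Algebra ℂ A] {Φ : Fld A} {D : Dat A} {M a : ℝ} {n k : ℕ}
  {Cf rm rI R0 R1 eps : ℝ} {ψ G bd : ℝ × ℝ → ℝ}

theorem wb_of {S : Set (ℝ × ℝ)} {y : ℝ} (sub : S ⊆ bx D y) (sm : ContDiff ℝ ∞ ψ)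
    (pos : ∀ p ∈ S, 0 ≤ ψ p) (out : ∀ p, p ∉ S → ψ p = 0) : Wb D D.r00 y ψ :=
  ⟨sm, fun p => by
    by_cases e : p ∈ S
    exacts [pos p e, (out p e).ge], fun p hp => out p fun e => hp (sub e)⟩

/-- A pointwise inequality on the support of the weight. -/
theorem Cx.on2 {y y' : ℝ} (h : Cx Φ D y') (hy : y ≤ y') (hψ : Wb D D.r00 y ψ) {F G H : A}
    {b c : ℝ} (e : ∀ x, Φ.pr x ∈ bx D y → Φ.B.val x F ≤ b * Φ.B.val x G + c * Φ.B.val x H) :
    N Φ ψ F ≤ b * N Φ ψ G + c * N Φ ψ H := by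
  have w := hψ.mono le_rfl hy
  refine h.le2 w w w fun x => ?_
  by_cases z : ψ (Φ.pr x) = 0
  · simp [z]
  · nlinarith [mul_le_mul_of_nonneg_left (e x (hψ.mem z)) (hψ.pos (Φ.pr x))]

theorem Cx.on3 {y y' : ℝ} (h : Cx Φ D y') (hy : y ≤ y') (hψ : Wb D D.r00 y ψ) {F G G' H : A}
    {b b' c : ℝ} (e : ∀ x, Φ.pr x ∈ bx D y →
      Φ.B.val x F ≤ b * Φ.B.val x G + b' * Φ.B.val x G' + c * Φ.B.val x H) :
    N Φ ψ F ≤ b * N Φ ψ G + b' * N Φ ψ G' + c * N Φ ψ H := by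
  have w := hψ.mono le_rfl hy
  refine h.le3 w w w w fun x => ?_
  by_cases z : ψ (Φ.pr x) = 0
  · simp [z]
  · nlinarith [mul_le_mul_of_nonneg_left (e x (hψ.mem z)) (hψ.pos (Φ.pr x))]

theorem card_yw {j m : ℕ} (e : j ≤ m) : ((yw j).card : ℝ) ≤ nw m :=
  Nat.cast_le.2 (Finset.card_le_card fun _ hW => mem_words.2 ((mem_yw.1 hW).1.le.trans e))

/-- The terms on the right of the red shift estimate. -/
noncomputable def Zr (Φ : Fld A) (D : Dat A) (ψ bd : ℝ × ℝ → ℝ) (l : ℕ) : ℝ :=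
  N Φ bd (Φ.lv (l + 1) D.f) + N Φ bd D.rho + N Φ ψ (Φ.lv l D.f) + N Φ ψ D.rho

/-- The red shift estimate for one section, with given weights. -/
def Rd (Φ : Fld A) (D : Dat A) (M a C Nn : ℝ) (ψ G bd : ℝ × ℝ → ℝ) : Prop :=
  ∀ s : ℝ, |s| ≤ Nn → ∀ u ∈ Φ.Sp, N Φ G (Φ.jq 1 u) + N Φ ψ (Φ.jq 1 u) ≤
    C * (N Φ bd (Φ.jq 1 u) + N Φ ψ (Φ.sq u) + N Φ ψ (Φ.sq (Φ.P s Φ.s M a u + Φ.Q D.del u)) +
      max s 0 * N Φ ψ (Φ.sq (Φ.R u)))

theorem red_one (F : Fam Φ D M a n k Cf rm rI R0 R1 eps) (h : Φ.Is) (hR : 3 * R0 ≤ 4 * R1)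
    (hs : |Φ.s| ≤ 2) {C : ℝ} (hC : 0 ≤ C) (H : Rd Φ D M a C (2 + (n + k : ℕ)) ψ G bd)
    (w1 : Wb D D.r00 (3 * R0) ψ) (w2 : Wb D D.r00 (3 * R0) G) (w3 : Wb D D.r00 (3 * R0) bd)
    {l j : ℕ} (hl : l ≤ n + k) {W : List (Fin 5)} (hW : IsY W) (e : j + W.length = l) :
    N Φ ψ (Φ.jq 1 (D.f (List.replicate j 1 ++ W))) ≤ C * ((2 * nw 1 + 1 + |Cf|) * Zr Φ D ψ bd l +
      max (Φ.s - j) 0 * N Φ ψ (Φ.sq (Φ.R (D.f (List.replicate j 1 ++ W))))) := by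
  have c := Fm.cx F h
  have hj : (j : ℝ) ≤ (n + k : ℕ) := Nat.cast_le.2 (by omega)
  have j0 : (0 : ℝ) ≤ j := j.cast_nonneg
  have len : (List.replicate j (1 : Fin 5) ++ W).length ≤ l := by simp; omega
  have e0 := H (Φ.s - j) (abs_le.2 ⟨by linarith [(abs_le.1 hs).1], by linarith [(abs_le.1 hs).2]⟩)
    _ (F.sp (List.replicate j 1 ++ W))
  have e1 := c.nonneg (w2.mono le_rfl hR) (F := Φ.jq 1 (D.f (List.replicate j 1 ++ W)))
    fun _ => h.jq_nonneg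
  have e2 := c.on2 hR w3 (F := Φ.jq 1 (D.f (List.replicate j 1 ++ W))) (G := Φ.lv (l + 1) D.f)
    (H := D.rho) (b := 2 * nw 1) (c := 2 * nw 1) fun x hx => by
      rw [← mul_add]; exact Fm.jq_le F h (bx_mono hR hx) len hl
  have e3 := c.on2 hR w1 (F := Φ.sq (D.f (List.replicate j 1 ++ W))) (G := Φ.lv l D.f)
    (H := D.rho) (b := 1) (c := 0) fun x _ => by
      rw [one_mul, zero_mul, add_zero, h.val_sq]; exact h.le_lv x D.f len
  have e4 := c.on2 hR w1 (F := Φ.sq (Φ.P (Φ.s - j) Φ.s M a (D.f (List.replicate j 1 ++ W)) +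
      Φ.Q D.del (D.f (List.replicate j 1 ++ W)))) (G := Φ.lv l D.f)
    (H := D.rho) (b := |Cf|) (c := 1) fun x hx => by
      have := F.eqR x hx j W hW (by omega)
      rw [e] at this
      rw [one_mul, h.val_sq]
      linarith [mul_le_mul_of_nonneg_right (le_abs_self Cf) (h.lv_nonneg x l D.f)]
  have p1 := c.nonneg (w3.mono le_rfl hR) fun x => h.lv_nonneg x (l + 1) D.f
  have p2 := c.nonneg (w3.mono le_rfl hR) F.rpos
  have p3 := c.nonneg (w1.mono le_rfl hR) fun x => h.lv_nonneg x l D.f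
  have p4 := c.nonneg (w1.mono le_rfl hR) F.rpos
  have q := nw_pos 1
  have q' := abs_nonneg Cf
  refine le_trans (by linarith) (e0.trans (mul_le_mul_of_nonneg_left ?_ hC))
  rw [Zr]
  nlinarith [mul_nonneg q' p1, mul_nonneg q' p2, mul_nonneg q' p4]

/-- The red shift estimate for the family. -/
theorem redF (C Cf : ℝ) (m : ℕ) (hC : 0 ≤ C) : ∃ C', 0 ≤ C' ∧
    ∀ (A : Type) [CommRing A] [Algebra ℂ A] (Φ : Fld A) (D : Dat A) (M a rm rI R0 R1 eps : ℝ)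
      (n k : ℕ), n + k = m → Fam Φ D M a n k Cf rm rI R0 R1 eps → Φ.Is → 3 * R0 ≤ 4 * R1 →
      |Φ.s| ≤ 2 → ∀ ψ G bd, Rd Φ D M a C (2 + m) ψ G bd → Wb D D.r00 (3 * R0) ψ →
      Wb D D.r00 (3 * R0) G → Wb D D.r00 (3 * R0) bd → ∀ l, 2 ≤ l → l ≤ m →
      ∑ j ∈ Finset.range (l + 1), ∑ W ∈ yw (l - j),
        N Φ ψ (Φ.jq 1 (D.f (List.replicate j 1 ++ W))) ≤ C' * Zr Φ D ψ bd l := by
  obtain ⟨c, hc⟩ : ∃ c, c = C * (2 * nw 1 + 61 + 61 * |Cf|) := ⟨_, rfl⟩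
  have q := nw_pos 1
  have q' := abs_nonneg Cf
  have c0 : 0 ≤ c := by rw [hc]; positivity
  have qm := nw_pos m
  refine ⟨(m + 1) * (nw m * (c * (1 + 32 * C) ^ 2)), by positivity, ?_⟩
  intro A _ _ Φ D M a rm rI R0 R1 eps n k hm F h hR hs ψ G bd H w1 w2 w3 l l2 hl
  subst hm
  have cx := Fm.cx F h
  have p1 := cx.nonneg (w3.mono le_rfl hR) fun x => h.lv_nonneg x (l + 1) D.f
  have p2 := cx.nonneg (w3.mono le_rfl hR) F.rpos
  have p3 := cx.nonneg (w1.mono le_rfl hR) fun x => h.lv_nonneg x l D.f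
  have p4 := cx.nonneg (w1.mono le_rfl hR) F.rpos
  have Z0 : 0 ≤ Zr Φ D ψ bd l := by rw [Zr]; positivity
  have Z1 : N Φ ψ (Φ.lv l D.f) ≤ Zr Φ D ψ bd l := by rw [Zr]; linarith
  have Z2 : N Φ ψ D.rho ≤ Zr Φ D ψ bd l := by rw [Zr]; linarith
  have s2 := (abs_le.1 hs).2
  have hi : ∀ j W, IsY W → j + W.length = l → 2 ≤ j →
      N Φ ψ (Φ.jq 1 (D.f (List.replicate j 1 ++ W))) ≤ c * Zr Φ D ψ bd l := fun j W hW e hj => by
    have := red_one F h hR hs hC H w1 w2 w3 hl hW e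
    have j2 : (2 : ℝ) ≤ j := by exact_mod_cast hj
    rw [max_eq_right (by linarith), zero_mul, add_zero, ← mul_assoc] at this
    refine this.trans (mul_le_mul_of_nonneg_right ?_ Z0)
    rw [hc]
    exact mul_le_mul_of_nonneg_left (by linarith) hC
  have lo : ∀ j W b, IsY W → j + W.length = l → j ≤ 1 → (∀ W', IsY W' → j + 1 + W'.length = l →
      N Φ ψ (Φ.jq 1 (D.f (List.replicate (j + 1) 1 ++ W'))) ≤ b * Zr Φ D ψ bd l) →
      N Φ ψ (Φ.jq 1 (D.f (List.replicate j 1 ++ W))) ≤ (c + 32 * C * b) * Zr Φ D ψ bd l := by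
    intro j W b hW e hj ih
    cases W with
    | nil => simp at e; omega
    | cons y W =>
      have e0 := red_one F h hR hs hC H w1 w2 w3 hl hW e
      rw [List.length_cons] at e
      have e1 := ih W hW.tail (by omega)
      have e2 := cx.on3 hR w1 (F := Φ.sq (Φ.R (D.f (List.replicate j 1 ++ y :: W))))
        (G := Φ.jq 1 (D.f (List.replicate (j + 1) 1 ++ W))) (G' := Φ.lv l D.f) (H := D.rho)
        (b := 16) (b' := 30 * |Cf|) (c := 30) fun x hx => by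
          have := Fm.R_le F h hR hx hj y (W := W) (l := l) (by omega) hl
          rw [h.val_sq]; linarith
      have e3 := cx.nonneg (w1.mono le_rfl hR)
        (F := Φ.sq (Φ.R (D.f (List.replicate j 1 ++ y :: W)))) fun x => by
          rw [h.val_sq]; positivity
      have j0 : (0 : ℝ) ≤ j := j.cast_nonneg
      have e4 := mul_le_mul_of_nonneg_right (max_le (by linarith) zero_le_two : max (Φ.s - j) 0 ≤ 2)
        e3
      have e5 := mul_le_mul_of_nonneg_left Z1 q'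
      refine e0.trans (le_trans (mul_le_mul_of_nonneg_left (?_ : _ ≤ (2 * nw 1 + 61 + 61 * |Cf|) *
        Zr Φ D ψ bd l + 32 * (b * Zr Φ D ψ bd l)) hC) (le_of_eq ?_))
      · linarith
      · rw [hc]; ring
  have h1 := fun W hW e => lo 1 W c hW e le_rfl fun W' hW' e' => hi 2 W' hW' e' le_rfl
  have h0 := fun W hW e => lo 0 W _ hW e zero_le_one fun W' hW' e' => h1 W' hW' e'
  have all : ∀ j W, IsY W → j + W.length = l →
      N Φ ψ (Φ.jq 1 (D.f (List.replicate j 1 ++ W))) ≤ c * (1 + 32 * C) ^ 2 * Zr Φ D ψ bd l := by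
    intro j W hW e
    have k1 := mul_nonneg c0 hC
    have k2 := mul_nonneg k1 hC
    rcases Nat.lt_or_ge j 2 with hj | hj
    · interval_cases j
      · exact (h0 W hW e).trans (mul_le_mul_of_nonneg_right (by nlinarith) Z0)
      · exact (h1 W hW e).trans (mul_le_mul_of_nonneg_right (by nlinarith) Z0)
    · exact (hi j W hW e hj).trans (mul_le_mul_of_nonneg_right (by nlinarith) Z0)
  have b0 : 0 ≤ c * (1 + 32 * C) ^ 2 * Zr Φ D ψ bd l := by positivity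
  refine (Finset.sum_le_card_nsmul _ _ (nw (n + k) * (c * (1 + 32 * C) ^ 2 * Zr Φ D ψ bd l))
    fun j hj => ?_).trans ?_
  · have := Finset.mem_range.1 hj
    refine (Finset.sum_le_card_nsmul _ _ _ fun W hW =>
      all j W (mem_yw.1 hW).2 (by rw [(mem_yw.1 hW).1]; omega)).trans ?_
    rw [nsmul_eq_mul]
    exact mul_le_mul_of_nonneg_right (card_yw (by omega)) b0
  · have : ((l + 1 : ℕ) : ℝ) ≤ (n + k : ℕ) + 1 := by exact_mod_cast Nat.succ_le_succ hl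
    rw [nsmul_eq_mul, Finset.card_range]
    exact (mul_le_mul_of_nonneg_right this (by positivity)).trans (le_of_eq (by ring))

/-- The estimate in unit time for one section, for all weights on S. -/
def Un (Φ : Fld A) (D : Dat A) (M a C rI Rs : ℝ) (S : Set (ℝ × ℝ)) : Prop :=
  ∀ ψ G bd, Dec S rI Rs ψ G bd → (∀ p, p ∉ S → ψ p = 0 ∧ G p = 0 ∧ bd p = 0) → ∀ u ∈ Φ.Sp,
    N Φ G (Φ.jq 1 u) ≤ C * (N Φ bd (Φ.jq 1 u) + N Φ ψ (Φ.jq 1 u) +
      N Φ ψ (Φ.sq (Φ.P Φ.s Φ.s M a u + Φ.Q D.del u)))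

theorem ex_der (K t0 t : ℝ) :
    deriv (fun t => Real.exp (-K * (t - t0))) t = -K * Real.exp (-K * (t - t0)) := by
  have := (((hasDerivAt_id t).sub_const t0).const_mul (-K)).exp.deriv
  simpa [mul_comm] using this

/-- The estimate in unit time for the family. -/
theorem uniF (C Cf : ℝ) (m : ℕ) (hC : 0 ≤ C) : ∃ C', 0 ≤ C' ∧
    ∀ (A : Type) [CommRing A] [Algebra ℂ A] (Φ : Fld A) (D : Dat A) (M a rm rI R0 R1 eps Rs t0 : ℝ)
      (n k : ℕ), n + k = m → Fam Φ D M a n k Cf rm rI R0 R1 eps → Φ.Is → 3 * R0 ≤ 4 * R1 →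
      ∀ S, S ⊆ bx D (3 * R0) → (∀ p ∈ S, t0 ≤ p.1 ∧ p.1 ≤ t0 + 3) → Un Φ D M a C rI Rs S →
      ∀ ψ G bd, Dec S rI Rs ψ G bd → (∀ p, p ∉ S → ψ p = 0 ∧ G p = 0 ∧ bd p = 0) →
      N Φ ψ (Φ.lv (m + 1) D.f) ≤
        C' * (N Φ bd (Φ.lv (m + 1) D.f) + N Φ bd D.rho + N Φ ψ D.rho) := by
  have q := nw_pos 1
  have q' := abs_nonneg Cf
  have qm := nw_pos m
  have qm' := nw_pos (m + 1)
  obtain ⟨c, hc⟩ : ∃ c, c = nw m * (C * (2 * nw 1 + 1 + |Cf|)) := ⟨_, rfl⟩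
  have c0 : 0 ≤ c := by rw [hc]; positivity
  obtain ⟨K, hK⟩ : ∃ K, K = 4 * nw (m + 1) * c + 1 := ⟨_, rfl⟩
  have K1 : 1 ≤ K := by rw [hK]; nlinarith [mul_nonneg (zero_le_one.trans qm') c0]
  refine ⟨Real.exp (3 * K) * (1 + 4 * nw (m + 1)), by positivity, ?_⟩
  intro A _ _ Φ D M a rm rI R0 R1 eps Rs t0 n k hm F h hR S sub tm H ψ G bd hd out
  subst hm
  have cx := Fm.cx F h
  have es : ContDiff ℝ ∞ fun t : ℝ => Real.exp (-K * (t - t0)) :=
    Real.contDiff_exp.comp (contDiff_const.mul (contDiff_id.sub contDiff_const))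
  have d := dec_mul hd (dec_tdn (S := S) (rI := rI) (Rs := Rs) es (fun t => (Real.exp_pos _).le)
    fun t => by rw [ex_der]; nlinarith [Real.exp_pos (-K * (t - t0))])
  simp only [ex_der, mul_zero, zero_add] at d
  have o : ∀ p, p ∉ S → ψ p * Real.exp (-K * (p.1 - t0)) = 0 ∧
      ψ p * -(-K * Real.exp (-K * (p.1 - t0))) + Real.exp (-K * (p.1 - t0)) * G p = 0 ∧
      Real.exp (-K * (p.1 - t0)) * bd p = 0 :=
    fun p hp => ⟨by simp [out p hp], by simp [out p hp], by simp [out p hp]⟩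
  have w0 := (wb_of sub hd.s1 hd.pos fun p hp => (out p hp).1).mono le_rfl hR
  have wb0 := (wb_of sub hd.s3 (fun _ => Dec.bd_pos hd) fun p hp => (out p hp).2.2).mono le_rfl hR
  have w1 := wb_of sub d.s1 d.pos fun p hp => (o p hp).1
  have w2 := wb_of sub d.s2 (fun _ => Dec.G_pos d) fun p hp => (o p hp).2.1
  have w3 := wb_of sub d.s3 (fun _ => Dec.bd_pos d) fun p hp => (o p hp).2.2
  have H' := H _ _ _ d o
  have g : ∀ p, 0 ≤ G p := (wb_of sub hd.s2 (fun _ => Dec.G_pos hd) fun p hp => (out p hp).2.1).pos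
  have x1 : ∀ p, ψ p * Real.exp (-K * (p.1 - t0)) ≤ 1 * ψ p ∧
      Real.exp (-K * (p.1 - t0)) * bd p ≤ 1 * bd p ∧
      ψ p ≤ Real.exp (3 * K) * (ψ p * Real.exp (-K * (p.1 - t0))) := fun p => by
    by_cases e : p ∈ S
    · have e1 : Real.exp (-K * (p.1 - t0)) ≤ 1 := Real.exp_le_one_iff.2 (by nlinarith [tm p e])
      have e2 : 1 ≤ Real.exp (3 * K) * Real.exp (-K * (p.1 - t0)) := by
        rw [← Real.exp_add]; exact Real.one_le_exp (by nlinarith [tm p e])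
      exact ⟨by nlinarith [w0.pos p], by nlinarith [wb0.pos p], by nlinarith [w0.pos p]⟩
    · simp [out p e]
  have x2 : ∀ p, K * (ψ p * Real.exp (-K * (p.1 - t0))) ≤
      1 * (ψ p * -(-K * Real.exp (-K * (p.1 - t0))) + Real.exp (-K * (p.1 - t0)) * G p) :=
    fun p => by nlinarith [mul_nonneg (Real.exp_pos (-K * (p.1 - t0))).le (g p)]
  have lv0 := fun x => h.lv_nonneg x (n + k + 1) D.f
  have y1 := cx.w1 (w1.mono le_rfl hR) w0 F.rpos fun p => (x1 p).1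
  have y2 := cx.w1 (w3.mono le_rfl hR) wb0 F.rpos fun p => (x1 p).2.1
  have y3 := cx.w1 (w3.mono le_rfl hR) wb0 lv0 fun p => (x1 p).2.1
  have y4 := cx.w1 w0 (w1.mono le_rfl hR) lv0 fun p => (x1 p).2.2
  have y5 : ∀ u, K * N Φ (fun p => ψ p * Real.exp (-K * (p.1 - t0))) (Φ.jq 1 u) ≤ _ := fun u =>
    le_trans (le_of_eq (by
      rw [N, N, ← J_rl, ← mul_assoc, ← h.cst, ← h.mul _ _ contDiff_const d.s1]))
    (cx.w1 ((w1.smul (zero_le_one.trans K1)).mono le_rfl hR) (w2.mono le_rfl hR)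
      (F := Φ.jq 1 u) (fun _ => h.jq_nonneg) x2)
  generalize (fun p : ℝ × ℝ => ψ p * Real.exp (-K * (p.1 - t0))) = ψ1 at *
  generalize (fun p : ℝ × ℝ => Real.exp (-K * (p.1 - t0)) * bd p) = b1 at *
  have p1 := cx.nonneg (w3.mono le_rfl hR) lv0
  have p2 := cx.nonneg (w3.mono le_rfl hR) F.rpos
  have p3 := cx.nonneg (w1.mono le_rfl hR) lv0
  have p4 := cx.nonneg (w1.mono le_rfl hR) F.rpos
  have one : ∀ J ∈ words (n + k), K * N Φ ψ1 (Φ.jq 1 (D.f J)) ≤ C * (2 * nw 1 + 1 + |Cf|) *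
      (N Φ b1 (Φ.lv (n + k + 1) D.f) + N Φ b1 D.rho + N Φ ψ1 (Φ.lv (n + k + 1) D.f) +
        N Φ ψ1 D.rho) := fun J hJ => by
    have len := mem_words.1 hJ
    have j := fun {φ} (w : Wb D D.r00 (3 * R0) φ) => cx.on2 hR w (F := Φ.jq 1 (D.f J))
      (G := Φ.lv (n + k + 1) D.f) (H := D.rho) (b := 2 * nw 1) (c := 2 * nw 1) fun x hx => by
        rw [← mul_add]; exact Fm.jq_le F h (bx_mono hR hx) len le_rfl
    have e4 := cx.on2 hR w1 (F := Φ.sq (Φ.P Φ.s Φ.s M a (D.f J) + Φ.Q D.del (D.f J)))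
      (G := Φ.lv (n + k + 1) D.f) (H := D.rho) (b := |Cf|) (c := 1) fun x hx => by
        have := F.eqA x hx J hJ
        rw [one_mul, h.val_sq]
        linarith [mul_le_mul_of_nonneg_right (le_abs_self Cf) (h.lv_nonneg x (J.length + 1) D.f),
          mul_le_mul_of_nonneg_left (h.lv_mono x (Nat.succ_le_succ len) D.f) q']
    refine (y5 _).trans ?_
    rw [one_mul, mul_assoc]
    refine (H' _ (F.sp J)).trans (mul_le_mul_of_nonneg_left ?_ hC)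
    nlinarith [j w1, j w3, mul_nonneg q' p1, mul_nonneg q' p2, mul_nonneg q' p4]
  have sm := Finset.sum_le_card_nsmul _ _ _ one
  rw [← Finset.mul_sum, ← N_sum, nsmul_eq_mul, ← mul_assoc, ← nw, ← hc] at sm
  have up := cx.on2 hR w1 (F := Φ.lv (n + k + 1) D.f) (G := ∑ J ∈ words (n + k), Φ.jq 1 (D.f J))
    (H := D.rho) (b := 2 * nw (n + k + 1)) (c := 2 * nw (n + k + 1)) fun x hx => by
      rw [← mul_add]; exact Fm.lv_le F h (bx_mono hR hx) le_rfl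
  have fin : N Φ ψ1 (Φ.lv (n + k + 1) D.f) ≤ (1 + 4 * nw (n + k + 1)) *
      (N Φ bd (Φ.lv (n + k + 1) D.f) + N Φ bd D.rho + N Φ ψ D.rho) := by
    generalize N Φ ψ1 (∑ J ∈ words (n + k), Φ.jq 1 (D.f J)) = Y at sm up
    generalize nw (n + k + 1) = v at *
    have u1 := mul_le_mul_of_nonneg_left sm (show 0 ≤ 2 * v by linarith)
    have u2 := mul_le_mul_of_nonneg_left up (zero_le_one.trans K1)
    have u3 : K * N Φ ψ1 (Φ.lv (n + k + 1) D.f) ≤ K * (N Φ b1 (Φ.lv (n + k + 1) D.f) +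
        N Φ b1 D.rho + N Φ ψ1 D.rho + 4 * v * N Φ ψ1 D.rho) := by
      rw [hK] at u1 u2 ⊢
      nlinarith
    have u4 := le_of_mul_le_mul_left u3 (by linarith)
    nlinarith [mul_le_mul_of_nonneg_left y1 (show 0 ≤ 4 * v by linarith),
      mul_nonneg (show 0 ≤ 4 * v by linarith) (p1.trans y3),
      mul_nonneg (show 0 ≤ 4 * v by linarith) (p2.trans y2)]
  rw [mul_assoc]
  exact y4.trans (mul_le_mul_of_nonneg_left fin (Real.exp_pos _).le)

end Vale.Agent.P354PH
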