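import Vale.Agent.P354PH.Step
import Vale.Agent.P354PE.Elb

/-!
All jets near the black hole from the words in T and the axial field.
-/

open scoped ContDiff
open Set

namespace Vale.Agent.P354PH

open Vale.Agent.P354XT Vale.Agent.P354XT.Fld Vale.Agent.P354XI Vale.Agent.P354XI.Ibp
open Vale.Agent.P354BF (rp)

variable {A : Type} [CommRing A] [Algebra ℂ A] {Φ : Fld A} {D : Dat A} {M a : ℝ} {n k : ℕ}
  {Cf rm rI R0 R1 eps : ℝ}

theorem alg {Q T L1 A1 La Lb W A0 U : ℝ} (hQ : 1 ≤ Q) (hT : 0 ≤ T) (h1 : L1 ≤ Q * (T + T))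
    (h2 : A1 ≤ Q * (T + L1)) (h3 : La ≤ Q * (T + L1)) (h4 : Lb ≤ Q * (T + L1))
    (h5 : W ≤ Q * (T + L1)) (h6 : A0 ≤ Q * (T + (La + A1))) (h7 : U ≤ Q * (T + (A0 + W))) :
    3 * U + 2 * T + A0 + La + Lb + A1 + L1 ≤ 60 * Q ^ 4 * T := by
  have Q0 := zero_le_one.trans hQ
  have m : ∀ {x y : ℝ}, x ≤ y → Q * x ≤ Q * y := fun e => mul_le_mul_of_nonneg_left e Q0
  have t1 : T ≤ Q * T := le_mul_of_one_le_left hT hQ
  have t2 := m t1
  have t3 := m t2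
  have t4 := m t3
  have a1 := m (show T + L1 ≤ 3 * (Q * T) by linarith)
  have a2 := m (show T + (La + A1) ≤ 7 * (Q * (Q * T)) by linarith)
  have a3 := m (show T + (A0 + W) ≤ 11 * (Q * (Q * (Q * T))) by linarith)
  linarith

theorem core (F : Fam Φ D M a n k Cf rm rI R0 R1 eps) (h : Φ.Is) (he : eps ≤ 1)
    {Q δ r2 rb Rs p1 p2 p3 p4 d x0 : ℝ} {l κ : ℕ} (P : Nm D δ r2 p1 p2 p3 p4 rI R0 R1 κ)
    (l2 : 2 ≤ l) (hw : Sl (1 / 16) Q) (hδ : Sl δ Q) (HE : El Φ D Q r2 R0 (l + 1))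
    (HA : Ea Φ D Q R0 (l + 1)) (HR : Er Φ D Q rI rb (l + 1)) (HU : Eu Φ D Q rI Rs R0 (l + 1))
    (d2 : δ ≤ d) (d4 : r2 + 4 * δ ≤ rb) (i1 : rI ≤ x0) (Rs1 : Rs ≤ R0) {eB eE c1 c2 : ℝ → ℝ}
    (wB : Wg eB D.t1 (D.t1 + κ) (Icc (D.t1 + 2) (D.t1 + κ - 1 / 4)))
    (wE : Wg eE D.t1 (D.t1 + κ) (Icc (D.t1 + κ - 3 / 4) (D.t1 + κ - 1 / 4)))
    (w1 : Wg c1 x0 (3 * R0) (Icc r2 (5 * R0 / 2)))
    (w2 : Wg c2 x0 (3 * R0) (Icc r2 (p2 + d) ∪ Icc (p3 - d) (5 * R0 / 2))) :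
    D.En Φ (l + 1) R0 κ + ∑ j ∈ Finset.range (κ + 1), D.bk Φ (l + 1) p1 p2 p3 p4 R0 j ≤
      60 * (10 * Q ^ 3) ^ 4 * (D.yq Φ (l + 1) eB c2 + D.yq Φ l eB c1 + D.yq Φ (l + 1) eE c1 +
        D.rest Φ (l + 1) R1 κ) := by
  have cx := Fm.cx F h
  have δ0 := P.d0
  have rs := Fm.rest_ge F P.R10 h he (l + 1) P.kK
  rw [add_tsub_cancel_right] at rs
  have m1 := cx.nonneg (P.v3 F) fun x => h.lv_nonneg x (l + 1 + 1) D.f
  have m2 := cx.nonneg (P.vE F) fun x => h.lv_nonneg x l D.f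
  have m3 := cx.nonneg (P.vE F) F.rpos
  have t2 : D.t1 + κ ≤ D.t1 + D.K + 2 := by linarith [P.cK]
  have x1 : D.r00 ≤ x0 := by linarith [Fm.r00_lt F]
  have yL := yq_ge cx wB w1 t2 x1 P.R34 l w16 δ0 (P.vL F) (Icc_subset_Icc le_rfl (by linarith))
    (Icc_subset_Icc (by linarith) (by linarith))
  have ya := yq_ge cx wB w2 t2 x1 P.R34 (l + 1) w16 δ0 (P.va F)
    (Icc_subset_Icc (by linarith) (by linarith))
    ((Icc_subset_Icc (by linarith) (by linarith)).trans subset_union_left)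
  have yb := yq_ge cx wB w2 t2 x1 P.R34 (l + 1) w16 δ0 (P.vb F)
    (Icc_subset_Icc (by linarith) (by linarith))
    ((Icc_subset_Icc (by linarith) (by linarith [P.d1, P.r12])).trans subset_union_right)
  have yW := yq_ge cx wE w1 t2 x1 P.R34 (l + 1) w16 δ0 (P.vW F)
    (Icc_subset_Icc (by linarith) (by linarith)) (Icc_subset_Icc (by linarith) (by linarith))
  obtain ⟨T, hT⟩ : ∃ T, T = D.yq Φ (l + 1) eB c2 + D.yq Φ l eB c1 + D.yq Φ (l + 1) eE c1 +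
    D.rest Φ (l + 1) R1 κ := ⟨_, rfl⟩
  rw [← hT]
  have B : Tb Φ D R1 T κ l := ⟨by linarith [yL.2, ya.2, yW.2], by linarith [yL.2, ya.2, yW.2],
    by linarith [yL.2, ya.2, yW.2]⟩
  have s1 := P.sL F h hw hδ HE B (yL.1.trans (by linarith [ya.2, yW.2]))
  have s3 := P.sT F h hw hδ HE B le_rfl le_rfl le_rfl
    (by linarith [P.q2, P.q3, P.q4, P.r12, P.d1]) (ya.1.trans (by linarith [yL.2, yW.2]))
  have s4 := P.sT F h hw hδ HE B le_rfl le_rfl (by linarith [P.d3, P.q1, P.q2])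
    (by linarith [P.r12, P.d1]) (yb.1.trans (by linarith [yL.2, yW.2]))
  have s5 := P.sT F h hw hδ HE B (by linarith [P.c3]) (by linarith) le_rfl (by linarith)
    (yW.1.trans (by linarith [yL.2, ya.2]))
  obtain ⟨u1, s2⟩ := P.s1 F h l2 hw hδ HA HR d4 B
  obtain ⟨u0, s6⟩ := P.s0 F h l2 hw hδ HA HR d4 B u1
  obtain ⟨uU, s7⟩ := P.sU F h hw HU Rs1 B u0
  exact (P.lhs F h B u1 u0 uU).trans (alg (by linarith [one_le_pow₀ (n := 3) hw.one]) (P.T0 F h B)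
    s1 s2 s3 s4 s5 s6 s7)

theorem phys (hU : UNI) (hR : RED) (σ : Bool) : PHYS σ := by
  intro M0 a0 rm ha f hf
  obtain ⟨Rs, hU⟩ := hU M0 a0 rm ha f hf
  refine ⟨max Rs 12, fun n k Cf hn => ?_⟩
  obtain ⟨rb, hrb, hR⟩ := hR M0 a0 rm ha f hf (2 + (n + k : ℕ))
  refine ⟨(rp M0 a0 + rb) / 2, by linarith, ?_⟩
  intro r2 rI p1 p2 p3 p4 d R0 i1 i2 i3 q0 q1 q2 q3 q4 hRs hd
  obtain ⟨δ, δ0, d1, d2, d3, d4⟩ : ∃ δ : ℝ, 0 < δ ∧ δ ≤ 1 / 4 ∧ δ ≤ d ∧ r2 + 4 * δ ≤ p1 ∧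
      r2 + 4 * δ ≤ rb := by
    refine ⟨min (min (1 / 4) d) (min ((p1 - r2) / 4) ((rb - r2) / 4)),
      lt_min (lt_min (by norm_num) hd) (lt_min (by linarith) (by linarith)),
      min_le_of_left_le (min_le_left _ _), min_le_of_left_le (min_le_right _ _), ?_, ?_⟩
    · linarith [(min_le_right (min (1 / 4) d) _).trans (min_le_left ((p1 - r2) / 4) ((rb - r2) / 4))]
    · linarith [(min_le_right (min (1 / 4) d) _).trans
        (min_le_right ((p1 - r2) / 4) ((rb - r2) / 4))]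
  obtain ⟨B1, b1, hB1⟩ := ex_slope (w := 1 / 16) (by norm_num)
  obtain ⟨B2, -, hB2⟩ := ex_slope δ0
  obtain ⟨CU, dU, eU, cU, dU0, eU0, hU⟩ := hU (2 + (n + k : ℕ)) rI (3 * R0) i3
  obtain ⟨CR, dR, eR, cR, dR0, eR0, hR⟩ := hR rI i3
  obtain ⟨CA, eA, cA, eA0, hA⟩ := P354PE.ela M0 a0 rm R0 Cf (sp σ) n k
    (by linarith [hf.lo, abs_nonneg a0]) (by omega)
  obtain ⟨CB, dB, eB, cB, dB0, eB0, hB⟩ := P354PE.elb M0 a0 rm r2 R0 Cf (sp σ) f n k ha i1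
    hf.sm.continuous (by omega)
  obtain ⟨C1, c1, h1⟩ := redF CR Cf (n + k) cR.le
  obtain ⟨C2, c2, h2⟩ := uniF CU Cf (n + k) cU.le
  obtain ⟨Q, m1, m2, m3, m4, m5, m6⟩ : ∃ Q : ℝ, B1 ≤ Q ∧ B2 ≤ Q ∧ CA ≤ Q ∧ CB ≤ Q ∧ C1 ≤ Q ∧
      C2 ≤ Q := ⟨B1 + |B2| + CA + CB + C1 + C2, by linarith [abs_nonneg B2],
    by linarith [le_abs_self B2], by linarith [abs_nonneg B2], by linarith [abs_nonneg B2],
    by linarith [abs_nonneg B2], by linarith [abs_nonneg B2]⟩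
  refine ⟨60 * (10 * Q ^ 3) ^ 4, min (min dU dR) (min dB 1), min (min (min eU eR) (min eA eB)) 1,
    by positivity, by positivity, ?_⟩
  intro M a R1 hM ha' hR1 A _ _ Φ D h hs hΦ F κ k3 kK wB wE w1 w2 v1 v2 v3 v4
  simp only [lt_min_iff] at hM ha'
  have R12 : 12 ≤ R0 := (le_max_right _ _).trans hRs
  have R34 : 3 * R0 ≤ 4 * R1 := by linarith
  have s2 : |Φ.s| ≤ 2 := by rw [hs]; cases σ <;> simp [sp]
  have s3 : |Φ.s| ≤ 2 + (n + k : ℕ) := s2.trans (le_add_of_nonneg_right (Nat.cast_nonneg _))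
  have cx := Fm.cx F h
  have r0 := Fm.r00_lt F
  have lv0 := fun m x => h.lv_nonneg x m D.f
  have jq0 := fun {φ} (v : Wb D D.r00 (4 * R1) φ) u => cx.nonneg v (F := Φ.jq 1 u)
    fun _ => h.jq_nonneg
  obtain ⟨l, hl⟩ : ∃ l, n + k = l + 1 := ⟨n + k - 1, by omega⟩
  have HE : El Φ D Q r2 R0 (n + k) := fun j hj φ ψ s1 s2 s3 s4 s5 => by
    have v : Wb D D.r00 (4 * R1) ψ :=
      (Wb.mk s2 (fun p => (s3 p).1.trans (s3 p).2) s5).mono (by linarith) R34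
    have v' : Wb D D.r00 (4 * R1) φ := ⟨s1, fun p => (s3 p).1, fun p hp =>
      le_antisymm ((s3 p).2.trans (v.out p hp).le) (s3 p).1⟩
    exact (hB M a rI R1 _ hM.2.1 ha'.2.1 (by linarith) R34
      (min_le_of_left_le (min_le_of_right_le (min_le_right _ _))) A Φ D h hs hΦ F j hj φ ψ s1 s2 s3
      s4 s5).trans (mul_le_mul_of_nonneg_right m4 (add_nonneg (add_nonneg
        (Finset.sum_nonneg fun _ _ => jq0 v' _) (cx.nonneg v (lv0 _))) (cx.nonneg v F.rpos)))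
  have HA : Ea Φ D Q R0 (n + k) := fun j hj φ v => by
    have v' := v.mono le_rfl R34
    exact (hA M a rI R1 _ hM.2.2 ha'.2.2 R34
      (min_le_of_left_le (min_le_of_right_le (min_le_left _ _))) A Φ D h hs F j hj φ v.sm v.pos
      v.out).trans (mul_le_mul_of_nonneg_right m3 (add_nonneg (add_nonneg
        (Finset.sum_nonneg fun _ _ => Finset.sum_nonneg fun _ _ => jq0 v' _)
        (cx.nonneg v' (lv0 _))) (cx.nonneg v' F.rpos)))
  have HR : Er Φ D Q rI (min rb (3 * R0)) (n + k) := fun S hS sub ψ G bd dc out j j2 hj => by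
    have sub' := sub.trans (bx_mono (min_le_right _ _))
    have u1 := wb_of sub' dc.s1 dc.pos fun p hp => (out p hp).1
    have u3 := wb_of sub' dc.s3 (fun _ => Dec.bd_pos dc) fun p hp => (out p hp).2.2
    have dc' : Dec S rI (rb + 1) ψ G bd := ⟨dc.s1, dc.s2, dc.s3, dc.pos, fun p hp => by
      obtain ⟨x, y, z, x0, y0, z0, e, hy, hz, e'⟩ := dc.dec p hp
      exact ⟨x, y, z, x0, y0, z0, e, hy, fun q => by linarith [hz q, (sub hp).2.2], e'⟩⟩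
    refine (h1 A Φ D M a rm rI R0 R1 _ n k rfl F h R34 s2 ψ G bd (fun s hs u hu =>
      hR M a hM.1.2 ha'.1.2 A Φ h s3 hΦ S ψ G bd D.del dc' (Fm.cut F (by omega) hS
        ((min_le_right _ _).trans R34) (min_le_left _ _)
        (min_le_of_left_le (min_le_of_left_le (min_le_right _ _))) sub out) s hs u hu) u1
      (wb_of sub' dc.s2 (fun _ => Dec.G_pos dc) fun p hp => (out p hp).2.1) u3 j j2 hj).trans
      (mul_le_mul_of_nonneg_right m5 ?_)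
    exact add_nonneg (add_nonneg (add_nonneg (cx.nonneg (u3.mono le_rfl R34) (lv0 _))
      (cx.nonneg (u3.mono le_rfl R34) F.rpos)) (cx.nonneg (u1.mono le_rfl R34) (lv0 _)))
      (cx.nonneg (u1.mono le_rfl R34) F.rpos)
  have HU : Eu Φ D Q rI Rs R0 (n + k) := fun t0 S hS sub tm ψ G bd dc out => by
    have u1 := (wb_of sub dc.s1 dc.pos fun p hp => (out p hp).1).mono le_rfl R34
    have u3 := (wb_of sub dc.s3 (fun _ => Dec.bd_pos dc) fun p hp => (out p hp).2.2).mono le_rfl R34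
    exact (h2 A Φ D M a rm rI R0 R1 _ Rs t0 n k rfl F h R34 S sub tm (fun ψ G bd dc out u hu =>
      hU M a hM.1.1 ha'.1.1 A Φ h s3 hΦ S ψ G bd D.del dc (Fm.cut F (by omega) hS R34 le_rfl
        (min_le_of_left_le (min_le_of_left_le (min_le_left _ _))) sub out) Φ.s s3 u hu) ψ G bd dc
      out).trans (mul_le_mul_of_nonneg_right m6 (add_nonneg (add_nonneg (cx.nonneg u3 (lv0 _))
        (cx.nonneg u3 F.rpos)) (cx.nonneg u1 F.rpos)))
  rw [hl] at HE HA HR HU ⊢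
  rw [add_tsub_cancel_right]
  exact core F h (min_le_right _ _) ⟨δ0, d1, d3, by linarith, q1, q2, q3, q4, R12, hR1, k3, kK,
    by exact_mod_cast k3, by exact_mod_cast kK⟩ (by omega) ⟨w16, b1.trans m1, fun a t =>
    (hB1 a t).trans m1⟩ ⟨δ0, b1.trans m1, fun a t => (hB2 a t).trans m2⟩ HE HA HR HU d2
    (le_min d4 (by linarith)) i3.le ((le_max_left _ _).trans hRs) v1 v2 v3 v4

end Vale.Agent.P354PH
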