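import Vale.Agent.P354PH.Dec

/-!
Pointwise consequences of the hypotheses on the family.
-/

open scoped ContDiff
open Set

namespace Vale.Agent.P354PH

open Vale.Agent.P354XT Vale.Agent.P354XT.Fld Vale.Agent.P354XI Vale.Agent.P354XI.Ibp

variable {A : Type} [CommRing A] [Algebra ℂ A] {Φ : Fld A} {D : Dat A} {M a : ℝ} {n k : ℕ}
  {Cf rm rI R0 R1 eps : ℝ}

/-- The box up to the radius y. -/
def bx (D : Dat A) (y : ℝ) : Set (ℝ × ℝ) := Icc D.t1 (D.t1 + D.K + 2) ×ˢ Icc D.r00 y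

theorem bx_mono {y y' : ℝ} (e : y ≤ y') : bx D y ⊆ bx D y' := fun _ hp =>
  ⟨hp.1, hp.2.1, hp.2.2.trans e⟩

theorem md_tri (x : Φ.B.Pt) (u v : A) :
    Φ.B.md x u ^ 2 ≤ 2 * Φ.B.md x (u - v) ^ 2 + 2 * Φ.B.md x v ^ 2 := by
  have e := md_add x (u - v) v
  rw [sub_add_cancel] at e
  nlinarith [md_nonneg x u, md_nonneg x v, md_nonneg x (u - v),
    sq_nonneg (Φ.B.md x (u - v) - Φ.B.md x v)]

theorem md_symm (x : Φ.B.Pt) (u v : A) : Φ.B.md x (u - v) = Φ.B.md x (v - u) := by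
  rw [← md_neg, neg_sub]

theorem X_le_jq (h : Φ.Is) (x : Φ.B.Pt) (b : Fin 5) (u : A) :
    Φ.B.md x (Φ.X b u) ^ 2 ≤ Φ.B.val x (Φ.jq 1 u) :=
  h.le_lv x (fun J => Φ.wd J u) (J := [b]) le_rfl

theorem le_jq (h : Φ.Is) (x : Φ.B.Pt) (u : A) : Φ.B.md x u ^ 2 ≤ Φ.B.val x (Φ.jq 1 u) :=
  h.le_lv x (fun J => Φ.wd J u) (J := []) (Nat.zero_le _)

namespace Fm
variable (F : Fam Φ D M a n k Cf rm rI R0 R1 eps)
include F

theorem cx (h : Φ.Is) : Cx Φ D (4 * R1) := ⟨h, F.box⟩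

theorem r00_lt : D.r00 < rI := by
  by_contra e
  have := F.ch0 rI (not_lt.1 e)
  rw [F.ch1 rI le_rfl] at this
  exact one_ne_zero this

theorem ch_pos (r : ℝ) : 0 ≤ D.ch r := by
  rw [← F.ch0 (min r D.r00) (min_le_right _ _)]; exact F.chm (min_le_left _ _)

theorem ch_le (r : ℝ) : D.ch r ≤ 1 := by
  rw [← F.ch1 (max r rI) (le_max_right _ _)]; exact F.chm (le_max_left _ _)

theorem ch_der {r : ℝ} (hr : r ∉ Icc D.r00 rI) : deriv D.ch r = 0 := der_out F.ch0 F.ch1 r hr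

theorem dch {S : Set (ℝ × ℝ)} {Rs : ℝ} :
    Dec S rI Rs (fun p => D.ch p.2) (fun p => deriv D.ch p.2) fun _ => 0 :=
  dec_ch F.chs (ch_pos F) (fun _ => F.chm.deriv_nonneg) fun _ hr =>
    ch_der F fun e => not_le.2 hr e.2

theorem del_le (hn : 1 ≤ n) {x : Φ.B.Pt} (hx : Φ.pr x ∈ bx D (4 * R1)) (b c : Fin 5) :
    ∀ J ∈ words 1, Φ.B.md x (Φ.wd J (D.del b c)) ≤ eps := fun J hJ => by
  have h0 : 0 ≤ (Φ.pr x).1 - D.t1 := sub_nonneg.2 hx.1.1
  refine (F.del (min D.K ⌊(Φ.pr x).1 - D.t1⌋₊) (min_le_left _ _) x ⟨⟨?_, ?_⟩, hx.2⟩ b c J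
    (words_mono hn hJ)).trans (F.hpos _).2
  · have : ((min D.K ⌊(Φ.pr x).1 - D.t1⌋₊ : ℕ) : ℝ) ≤ ⌊(Φ.pr x).1 - D.t1⌋₊ :=
      Nat.cast_le.2 (min_le_right _ _)
    linarith [Nat.floor_le h0]
  · rcases min_cases D.K ⌊(Φ.pr x).1 - D.t1⌋₊ with e | e <;> rw [e.1]
    · exact hx.1.2
    · linarith [Nat.lt_floor_add_one ((Φ.pr x).1 - D.t1)]

theorem cut (hn : 1 ≤ n) {S : Set (ℝ × ℝ)} (hS : IsCompact S) {y Rb e : ℝ} (hy : y ≤ 4 * R1)
    (hb : y ≤ Rb) (he : eps ≤ e) (sub : S ⊆ bx D y) {ψ G bd : ℝ × ℝ → ℝ}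
    (out : ∀ p, p ∉ S → ψ p = 0 ∧ G p = 0 ∧ bd p = 0) : Cut Φ S rm Rb e ψ G bd D.del where
  cp := hS
  sub := (sub.trans (bx_mono hy)).trans F.box
  rad _ hp := ⟨F.rm.trans (sub hp).2.1, (sub hp).2.2.trans hb⟩
  out := out
  dre := F.dre
  del _ hx b c J hJ := (del_le F hn (bx_mono hy (sub hx)) b c J hJ).trans he

theorem hon1 {x : Φ.B.Pt} (hx : Φ.pr x ∈ bx D (4 * R1)) (b : Fin 5) {J : List (Fin 5)}
    (hJ : J.length ≤ n + k) :
    Φ.B.md x (Φ.X b (D.f J) - D.f (b :: J)) ^ 2 ≤ Φ.B.val x D.rho :=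
  F.hon x hx [b] J (by simp) (by simp; omega)

/-- The first jet of a member of the family. -/
theorem jq_le (h : Φ.Is) {x : Φ.B.Pt} (hx : Φ.pr x ∈ bx D (4 * R1)) {J : List (Fin 5)} {l : ℕ}
    (hJ : J.length ≤ l) (hl : l ≤ n + k) : Φ.B.val x (Φ.jq 1 (D.f J)) ≤
      2 * nw 1 * (Φ.B.val x (Φ.lv (l + 1) D.f) + Φ.B.val x D.rho) := by
  rw [jq, h.val_lv, mul_comm 2, mul_assoc, nw, ← nsmul_eq_mul]
  refine Finset.sum_le_card_nsmul _ _ _ fun J' hJ' => ?_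
  have e0 := mem_words.1 hJ'
  have e1 := F.hon x hx J' J (by omega) (by omega)
  have e2 := h.le_lv x D.f (J := J' ++ J) (m := l + 1) (by rw [List.length_append]; omega)
  linarith [md_tri x (Φ.wd J' (D.f J)) (D.f (J' ++ J))]

/-- A level is bounded by the first jets of the level below. -/
theorem lv_le (h : Φ.Is) {x : Φ.B.Pt} (hx : Φ.pr x ∈ bx D (4 * R1)) {l : ℕ} (hl : l ≤ n + k) :
    Φ.B.val x (Φ.lv (l + 1) D.f) ≤ 2 * nw (l + 1) *
      (Φ.B.val x (∑ J ∈ words l, Φ.jq 1 (D.f J)) + Φ.B.val x D.rho) := by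
  have s : ∀ J : List (Fin 5), J.length ≤ l →
      Φ.B.val x (Φ.jq 1 (D.f J)) ≤ Φ.B.val x (∑ J ∈ words l, Φ.jq 1 (D.f J)) := fun J hJ => by
    rw [val_sum]
    exact Finset.single_le_sum (f := fun J => Φ.B.val x (Φ.jq 1 (D.f J)))
      (fun _ _ => h.jq_nonneg) (mem_words.2 hJ)
  rw [h.val_lv, mul_comm 2, mul_assoc, nw, ← nsmul_eq_mul]
  refine Finset.sum_le_card_nsmul _ _ _ fun J hJ => ?_
  have e0 := mem_words.1 hJ
  have r := F.rpos x
  cases J with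
  | nil =>
    have := s [] (Nat.zero_le _)
    linarith [le_jq h x (D.f []), sq_nonneg (Φ.B.md x (D.f []))]
  | cons b J =>
    rw [List.length_cons] at e0
    have e1 := hon1 F hx b (J := J) (by omega)
    rw [md_symm] at e1
    linarith [md_tri x (D.f (b :: J)) (Φ.X b (D.f J)), X_le_jq h x b (D.f J), s J (by omega)]

theorem swap1 (h : Φ.Is) {x : Φ.B.Pt} (hx : Φ.pr x ∈ bx D (3 * R0)) (p q : List (Fin 5))
    (b c : Fin 5) {l : ℕ} (e : p.length + q.length + 1 = l) (hl : l ≤ n + k) :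
    Φ.B.md x (D.f (p ++ b :: c :: q)) ^ 2 ≤ 2 * Φ.B.md x (D.f (p ++ c :: b :: q)) ^ 2 +
      2 * (|Cf| * Φ.B.val x (Φ.lv l D.f) + Φ.B.val x D.rho) := by
  have e1 := F.swap x hx p q b c (by omega)
  rw [e] at e1
  have := mul_le_mul_of_nonneg_right (le_abs_self Cf) (h.lv_nonneg x l D.f)
  linarith [md_tri x (D.f (p ++ b :: c :: q)) (D.f (p ++ c :: b :: q))]

/-- The radial derivative of the first two members is a first jet of the next member. -/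
theorem R_le (h : Φ.Is) (hR : 3 * R0 ≤ 4 * R1) {x : Φ.B.Pt} (hx : Φ.pr x ∈ bx D (3 * R0))
    {j l : ℕ} (hj : j ≤ 1) (y : Fin 5) {W : List (Fin 5)} (e : j + W.length + 1 = l)
    (hl : l ≤ n + k) : Φ.B.md x (Φ.R (D.f (List.replicate j 1 ++ y :: W))) ^ 2 ≤
      16 * Φ.B.val x (Φ.jq 1 (D.f (List.replicate (j + 1) 1 ++ W))) +
        30 * (|Cf| * Φ.B.val x (Φ.lv l D.f) + Φ.B.val x D.rho) := by
  have hx' := bx_mono hR hx
  have z := mul_nonneg (abs_nonneg Cf) (h.lv_nonneg x l D.f)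
  have r := F.rpos x
  have e1 := hon1 F hx' 1 (J := List.replicate j 1 ++ y :: W) (by simp; omega)
  have e2 := hon1 F hx' y (J := List.replicate (j + 1) 1 ++ W) (by simp; omega)
  rw [md_symm] at e2
  have e3 := md_tri x (Φ.X 1 (D.f (List.replicate j 1 ++ y :: W)))
    (D.f (1 :: (List.replicate j 1 ++ y :: W)))
  have e4 := md_tri x (D.f (y :: (List.replicate (j + 1) 1 ++ W)))
    (Φ.X y (D.f (List.replicate (j + 1) 1 ++ W)))
  have e5 := X_le_jq h x y (D.f (List.replicate (j + 1) 1 ++ W))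
  have q := h.jq_nonneg (x := x) (m := 1) (u := D.f (List.replicate (j + 1) 1 ++ W))
  rw [← X1]
  interval_cases j
  · have s1 := swap1 F h hx [] W 1 y (l := l) (by simp; omega) hl
    simp only [List.replicate, List.nil_append, List.cons_append, zero_add] at *
    linarith
  · have s1 := swap1 F h hx [1] W 1 y (l := l) (by simp; omega) hl
    have s2 := swap1 F h hx [] (1 :: W) 1 y (l := l) (by simp; omega) hl
    simp only [List.replicate, List.nil_append, List.cons_append] at *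
    linarith

end Fm

end Vale.Agent.P354PH
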