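import Vale.Agent.P354PH.Cmp

/-!
The steps of the estimate.
-/

open scoped ContDiff
open Set

namespace Vale.Agent.P354PH

open Vale.Agent.P354XT Vale.Agent.P354XT.Fld Vale.Agent.P354XI Vale.Agent.P354XI.Ibp

variable {A : Type} [CommRing A] [Algebra ℂ A] {Φ : Fld A} {D : Dat A} {M a : ℝ} {n k : ℕ}
  {Cf rm rI R0 R1 eps : ℝ}

/-- The position of the radii and times. -/
structure Nm (D : Dat A) (δ r2 p1 p2 p3 p4 rI R0 R1 : ℝ) (κ : ℕ) : Prop where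
  d0 : 0 < δ
  d1 : δ ≤ 1 / 4
  d3 : r2 + 4 * δ ≤ p1
  i1 : rI ≤ r2
  q1 : p1 < p2
  q2 : p2 ≤ p3
  q3 : p3 < p4
  q4 : p4 ≤ R0
  r12 : 12 ≤ R0
  r1 : R0 ≤ R1
  k3 : 3 ≤ κ
  kK : κ ≤ D.K
  c3 : (3 : ℝ) ≤ κ
  cK : (κ : ℝ) ≤ D.K

/-- The weights. -/
noncomputable def wL (D : Dat A) (δ r2 R0 : ℝ) (κ : ℕ) : ℝ × ℝ → ℝ :=
  bw (1 / 16) δ (D.t1 + 2) (D.t1 + κ - 5 / 16) (r2 + δ) (5 * R0 / 2 - δ)
noncomputable def wa (D : Dat A) (δ x y : ℝ) (κ : ℕ) : ℝ × ℝ → ℝ :=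
  bw (1 / 16) δ (D.t1 + 33 / 16) (D.t1 + κ - 6 / 16) x y
noncomputable def wW (D : Dat A) (δ r2 R0 : ℝ) (κ : ℕ) : ℝ × ℝ → ℝ :=
  bw (1 / 16) δ (D.t1 + κ - 12 / 16) (D.t1 + κ - 9 / 16) (r2 + 2 * δ) (5 * R0 / 2 - 2 * δ)
noncomputable def n1 (D : Dat A) (δ r2 : ℝ) (κ : ℕ) : ℝ × ℝ → ℝ :=
  nh D (1 / 16) δ (D.t1 + 33 / 16) (D.t1 + κ - 6 / 16) (r2 + 3 * δ)
noncomputable def n0 (D : Dat A) (δ r2 : ℝ) (κ : ℕ) : ℝ × ℝ → ℝ :=
  nh D (1 / 16) δ (D.t1 + 34 / 16) (D.t1 + κ - 7 / 16) (r2 + 3 * δ)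
noncomputable def wU (D : Dat A) (R0 : ℝ) (κ : ℕ) : ℝ × ℝ → ℝ :=
  lw D (1 / 16) (D.t1 + κ - 11 / 16) (D.t1 + κ + 1) (2 * R0 + 2)

/-- T bounds the terms with a large constant. -/
structure Tb (Φ : Fld A) (D : Dat A) (R1 T : ℝ) (κ l : ℕ) : Prop where
  t1 : N Φ (ew D R1 3) (Φ.lv (l + 1 + 1) D.f) ≤ T
  t2 : N Φ (ew D R1 (κ + 1)) (Φ.lv l D.f) ≤ T
  t3 : N Φ (ew D R1 (κ + 1)) D.rho ≤ T

theorem w16 : (0 : ℝ) < 1 / 16 := by norm_num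

theorem wk {Q X T Z : ℝ} (hQ : 1 ≤ Q) (e : X ≤ 5 * Q ^ 3 * (T + Z)) (hT : 0 ≤ T) (hZ : 0 ≤ Z) :
    X ≤ 10 * Q ^ 3 * (T + Z) :=
  e.trans (mul_le_mul_of_nonneg_right (by linarith [one_le_pow₀ (n := 3) hQ]) (by linarith))

namespace Nm
variable {Q δ r2 rb Rs p1 p2 p3 p4 T : ℝ} {κ l : ℕ} (P : Nm D δ r2 p1 p2 p3 p4 rI R0 R1 κ)
  (F : Fam Φ D M a n k Cf rm rI R0 R1 eps) (h : Φ.Is)
include P

theorem R10 : 0 < R1 := by linarith [P.r12, P.r1]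
theorem R34 : 3 * R0 ≤ 4 * R1 := by linarith [P.r12, P.r1]
include F

theorem vE : Wb D D.r00 (4 * R1) (ew D R1 (κ + 1)) := Fm.ew_wb F P.R10 (Nat.succ_le_succ P.kK)
theorem v3 : Wb D D.r00 (4 * R1) (ew D R1 3) := Fm.ew_wb F P.R10 (Nat.succ_le_succ F.K2)

theorem bwb {a b x y : ℝ} (e1 : D.t1 + 1 ≤ a) (e2 : b ≤ D.t1 + κ) (e3 : r2 ≤ x)
    (e4 : y ≤ 5 * R0 / 2) : Wb D D.r00 (4 * R1) (bw (1 / 16) δ a b x y) :=
  bw_wb w16 P.d0 (by linarith) (by linarith [P.cK]) (by linarith [Fm.r00_lt F, P.i1])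
    (by linarith [P.d1, P.r12, P.r1])

theorem vL : Wb D D.r00 (4 * R1) (wL D δ r2 R0 κ) :=
  P.bwb F (by linarith) (by linarith) (by linarith [P.d0]) (by linarith [P.d0])
theorem va : Wb D D.r00 (4 * R1) (wa D δ (r2 + 2 * δ) p2 κ) :=
  P.bwb F (by linarith) (by linarith) (by linarith [P.d0]) (by linarith [P.q2, P.q3, P.q4, P.r12])
theorem vb : Wb D D.r00 (4 * R1) (wa D δ (p3 - δ) (2 * R0 + 1) κ) :=
  P.bwb F (by linarith) (by linarith) (by linarith [P.d0, P.d3, P.q1, P.q2]) (by linarith [P.r12])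
theorem vW : Wb D D.r00 (4 * R1) (wW D δ r2 R0 κ) :=
  P.bwb F (by linarith [P.c3]) (by linarith) (by linarith [P.d0]) (by linarith [P.d0])

include h

theorem bE {a b x y : ℝ} (e1 : D.t1 + 1 ≤ a) (e2 : b ≤ D.t1 + κ) (e3 : r2 ≤ x)
    (e4 : y ≤ 5 * R0 / 2) {G : A} (hG : ∀ x, 0 ≤ Φ.B.val x G) :
    N Φ (bw (1 / 16) δ a b x y) G ≤ N Φ (ew D R1 (κ + 1)) G :=
  ((Fm.cx F h).w1 (P.bwb F e1 e2 e3 e4) (P.vE F) hG (Fm.bw_ew F P.R10 w16 P.d0 e1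
    (by push_cast; linarith) (P.i1.trans e3) (by linarith [P.d1, P.r12, P.r1]))).trans (one_mul _).le

theorem T0 (B : Tb Φ D R1 T κ l) : 0 ≤ T := ((Fm.cx F h).nonneg (P.vE F) F.rpos).trans B.t3

theorem rL (B : Tb Φ D R1 T κ l) : N Φ (wL D δ r2 R0 κ) D.rho ≤ T :=
  (P.bE F h (by linarith) (by linarith) (by linarith [P.d0]) (by linarith [P.d0]) F.rpos).trans B.t3

theorem sL (hw : Sl (1 / 16) Q) (hδ : Sl δ Q) (HE : El Φ D Q r2 R0 (l + 1)) (B : Tb Φ D R1 T κ l)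
    (hY : ∑ W ∈ yw l, N Φ (wL D δ r2 R0 κ) (Φ.jq 1 (D.f W)) ≤ T) :
    N Φ (wL D δ r2 R0 κ) (Φ.lv (l + 1) D.f) ≤ 10 * Q ^ 3 * (T + T) := by
  have vo : Wb D r2 (3 * R0) (bw (1 / 16) δ (D.t1 + 31 / 16) (D.t1 + κ - 1 / 4) r2 (5 * R0 / 2)) :=
    bw_wb w16 P.d0 (by linarith) (by linarith [P.cK]) le_rfl (by linarith [P.d1, P.r12])
  have e := ell_cut h HE l.le_succ hw hδ (D.t1 + 2) (D.t1 + κ - 5 / 16) (r2 + δ) (5 * R0 / 2 - δ)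
    vo fun p hp => (bw_one w16 P.d0 (by linarith [hp.1.1]) (by linarith [hp.1.2]) hp.2.1
      (by linarith [hp.2.2])).ge
  have T0 := P.T0 F h B
  exact wk hw.one (stE hw.one e hY ((P.bE F h (by linarith) (by linarith) le_rfl le_rfl
    fun x => h.lv_nonneg x l D.f).trans B.t2)
    ((P.bE F h (by linarith) (by linarith) le_rfl le_rfl F.rpos).trans B.t3) T0 T0) T0 T0

theorem sT (hw : Sl (1 / 16) Q) (hδ : Sl δ Q) (HE : El Φ D Q r2 R0 (l + 1)) (B : Tb Φ D R1 T κ l)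
    {a b x y : ℝ} (e1 : D.t1 + 33 / 16 ≤ a) (e2 : b ≤ D.t1 + κ - 6 / 16) (e3 : r2 + 2 * δ ≤ x)
    (e4 : y + δ ≤ 5 * R0 / 2 - δ)
    (hY : ∑ W ∈ yw (l + 1), N Φ (bw (1 / 16) δ a b x y) (Φ.jq 1 (D.f W)) ≤ T) :
    N Φ (bw (1 / 16) δ a b x y) (Φ.lv (l + 1 + 1) D.f) ≤
      10 * Q ^ 3 * (T + N Φ (wL D δ r2 R0 κ) (Φ.lv (l + 1) D.f)) := by
  have vL : Wb D r2 (3 * R0) (wL D δ r2 R0 κ) :=
    bw_wb w16 P.d0 (by linarith) (by linarith [P.cK]) (by linarith [P.d0]) (by linarith [P.r12])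
  have e := ell_cut h HE le_rfl hw hδ a b x y vL fun p hp => (bw_one w16 P.d0
    (by linarith [hp.1.1]) (by linarith [hp.1.2]) (by linarith [hp.2.1]) (by linarith [hp.2.2])).ge
  have pL := (Fm.cx F h).nonneg (P.vL F) fun x => h.lv_nonneg x (l + 1) D.f
  exact wk hw.one (stE hw.one e hY le_rfl (P.rL F h B) (P.T0 F h B) pL) (P.T0 F h B) pL

theorem r3 (B : Tb Φ D R1 T κ l) : N Φ (ew D R1 3) D.rho ≤ T :=
  ((Fm.cx F h).w1 (a := 1) (P.v3 F) (P.vE F) F.rpos fun p => by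
    rw [one_mul]
    exact mul_le_mul_of_nonneg_right (tE_mono (P.k3.trans κ.le_succ) _) (Fm.wf_pos F _)).trans
    ((one_mul _).le.trans B.t3)

theorem nE {a b : ℝ} (v : Wb D D.r00 (4 * R1) (nh D (1 / 16) δ a b (r2 + 3 * δ)))
    (e1 : D.t1 + 1 ≤ a) (e2 : b ≤ D.t1 + κ) {G : A} (hG : ∀ x, 0 ≤ Φ.B.val x G) :
    N Φ (nh D (1 / 16) δ a b (r2 + 3 * δ)) G ≤ N Φ (ew D R1 (κ + 1)) G :=
  ((Fm.cx F h).w1 v (P.vE F) hG (Fm.nh_ew F P.R10 w16 P.d0 e1 (by push_cast; linarith)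
    (by linarith [P.d3, P.q1, P.q2, P.q3, P.q4, P.r12, P.r1]))).trans (one_mul _).le

theorem s1 (l2 : 2 ≤ l) (hw : Sl (1 / 16) Q) (hδ : Sl δ Q) (HA : Ea Φ D Q R0 (l + 1))
    (HR : Er Φ D Q rI rb (l + 1)) (d4 : r2 + 4 * δ ≤ rb) (B : Tb Φ D R1 T κ l) :
    Wb D D.r00 (4 * R1) (n1 D δ r2 κ) ∧ N Φ (n1 D δ r2 κ) (Φ.lv (l + 1) D.f) ≤
      10 * Q ^ 3 * (T + N Φ (wL D δ r2 R0 κ) (Φ.lv (l + 1) D.f)) := by
  have i : r2 + 4 * δ ≤ R0 := by linarith [P.d3, P.q1, P.q2, P.q3, P.q4]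
  have cx := Fm.cx F h
  have lv0 := fun m x => h.lv_nonneg x m D.f
  obtain ⟨u, e⟩ := near F h P.R34 (zero_le_one.trans hw.one) HA HR l2 l.le_succ hw hδ
    (D.t1 + 33 / 16) (D.t1 + κ - 6 / 16) (r2 + 3 * δ) (by linarith) (by linarith [P.cK])
    (by linarith) (by linarith [P.r12]) (P.v3 F) (P.vL F) (fun p hp => (Fm.ew_eq P.R10
      (by linarith [hp.1.1]) (by push_cast; linarith [hp.1.2])
      (by linarith [mem_Iic.1 hp.2, P.r1, P.R10])).ge)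
    fun p hp => (bw_one w16 P.d0 (by linarith [hp.1.1]) (by linarith [hp.1.2])
      (by linarith [hp.2.1, P.d0]) (by linarith [hp.2.2, P.d1, P.r12])).ge
  have u' := u.mono le_rfl P.R34
  have pL := cx.nonneg (P.vL F) (lv0 (l + 1))
  have z1 := (P.nE F h u' (by linarith) (by linarith) (lv0 l)).trans B.t2
  have z2 := (cx.lv_le (l + 1).le_succ (P.v3 F) D.f).trans B.t1
  exact ⟨u', stR hw.one e (by linarith) (add_nonneg (cx.nonneg (P.v3 F) (lv0 _)) pL)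
    (cx.nonneg u' (lv0 l)) (P.r3 F h B) (P.rL F h B)
    ((P.nE F h u' (by linarith) (by linarith) F.rpos).trans B.t3) pL⟩

theorem s0 (l2 : 2 ≤ l) (hw : Sl (1 / 16) Q) (hδ : Sl δ Q) (HA : Ea Φ D Q R0 (l + 1))
    (HR : Er Φ D Q rI rb (l + 1)) (d4 : r2 + 4 * δ ≤ rb) (B : Tb Φ D R1 T κ l)
    (u1 : Wb D D.r00 (4 * R1) (n1 D δ r2 κ)) :
    Wb D D.r00 (4 * R1) (n0 D δ r2 κ) ∧ N Φ (n0 D δ r2 κ) (Φ.lv (l + 1 + 1) D.f) ≤
      10 * Q ^ 3 * (T + (N Φ (wa D δ (r2 + 2 * δ) p2 κ) (Φ.lv (l + 1 + 1) D.f) +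
        N Φ (n1 D δ r2 κ) (Φ.lv (l + 1) D.f))) := by
  have i : r2 + 4 * δ ≤ R0 := by linarith [P.d3, P.q1, P.q2, P.q3, P.q4]
  have cx := Fm.cx F h
  have lv0 := fun m x => h.lv_nonneg x m D.f
  obtain ⟨u, e⟩ := near F h P.R34 (zero_le_one.trans hw.one) HA HR (l2.trans l.le_succ) le_rfl hw hδ
    (D.t1 + 34 / 16) (D.t1 + κ - 7 / 16) (r2 + 3 * δ) (by linarith) (by linarith [P.cK])
    (by linarith) (by linarith [P.r12]) (P.v3 F) (P.va F) (fun p hp => (Fm.ew_eq P.R10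
      (by linarith [hp.1.1]) (by push_cast; linarith [hp.1.2])
      (by linarith [mem_Iic.1 hp.2, P.r1, P.R10])).ge)
    fun p hp => (bw_one w16 P.d0 (by linarith [hp.1.1]) (by linarith [hp.1.2])
      (by linarith [hp.2.1]) (by linarith [hp.2.2, P.d3, P.q1])).ge
  have u' := u.mono le_rfl P.R34
  have pa := cx.nonneg (P.va F) (lv0 (l + 1 + 1))
  have z1 : _ ≤ 1 * N Φ (n1 D δ r2 κ) (Φ.lv (l + 1) D.f) :=
    cx.w1 u' u1 (lv0 (l + 1)) (Fm.nh_le F w16 (by linarith) (by linarith))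
  have T0 := P.T0 F h B
  exact ⟨u', stR hw.one e (by linarith [B.t1]) (add_nonneg (cx.nonneg (P.v3 F) (lv0 _)) pa)
    (cx.nonneg u' (lv0 _)) (P.r3 F h B) ((P.bE F h (by linarith) (by linarith) (by linarith [P.d0])
      (by linarith [P.q2, P.q3, P.q4, P.r12]) F.rpos).trans B.t3)
    ((P.nE F h u' (by linarith) (by linarith) F.rpos).trans B.t3)
    (add_nonneg pa (cx.nonneg u1 (lv0 _)))⟩

theorem sU (hw : Sl (1 / 16) Q) (HU : Eu Φ D Q rI Rs R0 (l + 1)) (hs : Rs ≤ R0)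
    (B : Tb Φ D R1 T κ l) (u0 : Wb D D.r00 (4 * R1) (n0 D δ r2 κ)) :
    Wb D D.r00 (4 * R1) (wU D R0 κ) ∧ N Φ (wU D R0 κ) (Φ.lv (l + 1 + 1) D.f) ≤
      10 * Q ^ 3 * (T + (N Φ (n0 D δ r2 κ) (Φ.lv (l + 1 + 1) D.f) +
        N Φ (wW D δ r2 R0 κ) (Φ.lv (l + 1 + 1) D.f))) := by
  have cx := Fm.cx F h
  have lv0 := fun m x => h.lv_nonneg x m D.f
  have c3 := P.c3
  obtain ⟨u, e⟩ := last F h P.R34 (zero_le_one.trans hw.one) HU hw (D.t1 + κ - 11 / 16)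
    (D.t1 + κ + 1) (2 * R0 + 2) (by linarith) (by linarith [P.cK]) (by linarith)
    (by linarith [P.r12]) (by linarith [P.r12]) u0 (P.vW F) fun p hp => by
      by_cases e : p.2 ≤ r2 + 3 * δ
      · rw [n0, nh_eq w16 P.d0 (by linarith [hp.1.1]) (by linarith [hp.1.2]) e]
        exact le_add_of_nonneg_right (bw_pos _ _ _ _ _ _ _)
      · rw [wW, bw_one w16 P.d0 (by linarith [hp.1.1]) (by linarith [hp.1.2]) (by linarith)
          (by linarith [mem_Iic.1 hp.2, P.d1, P.r12])]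
        exact (Fm.ch_le F _).trans (le_add_of_nonneg_left (u0.pos p))
  have u' := u.mono le_rfl P.R34
  have T0 := P.T0 F h B
  have p := add_nonneg (cx.nonneg u0 (lv0 (l + 1 + 1))) (cx.nonneg (P.vW F) (lv0 (l + 1 + 1)))
  exact ⟨u', wk hw.one (stU hw.one e (le_add_of_nonneg_left T0)
    ((P.nE F h u0 (by linarith) (by linarith) F.rpos).trans B.t3)
    ((P.bE F h (by linarith) (by linarith) (by linarith [P.d0]) (by linarith [P.d0]) F.rpos).trans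
      B.t3) ((cx.w1 u' (P.vE F) F.rpos (Fm.lw_ew F P.R10 w16 (by linarith) (by linarith [P.r1])
        u)).trans ((one_mul _).le.trans B.t3)) T0 p) T0 p⟩

theorem lhs (B : Tb Φ D R1 T κ l) (u1 : Wb D D.r00 (4 * R1) (n1 D δ r2 κ))
    (u0 : Wb D D.r00 (4 * R1) (n0 D δ r2 κ)) (uU : Wb D D.r00 (4 * R1) (wU D R0 κ)) :
    D.En Φ (l + 1) R0 κ + ∑ j ∈ Finset.range (κ + 1), D.bk Φ (l + 1) p1 p2 p3 p4 R0 j ≤
      3 * N Φ (wU D R0 κ) (Φ.lv (l + 1 + 1) D.f) + 2 * T +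
        N Φ (n0 D δ r2 κ) (Φ.lv (l + 1 + 1) D.f) +
        N Φ (wa D δ (r2 + 2 * δ) p2 κ) (Φ.lv (l + 1 + 1) D.f) +
        N Φ (wa D δ (p3 - δ) (2 * R0 + 1) κ) (Φ.lv (l + 1 + 1) D.f) +
        N Φ (n1 D δ r2 κ) (Φ.lv (l + 1) D.f) + N Φ (wL D δ r2 R0 κ) (Φ.lv (l + 1) D.f) := by
  have cx := Fm.cx F h
  have lv0 := fun m x => h.lv_nonneg x m D.f
  have kK := Nat.succ_le_succ P.kK
  have i : 2 * R0 + 1 ≤ 3 * R1 := by linarith [P.r12, P.r1]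
  have gs := (Fm.wn_sm (R0 := R0) F).mul ((dn_sm p1 p2).add (up_sm p3 p4))
  have g0 : ∀ r, 0 ≤ D.wn R0 r * (dn p1 p2 r + up p3 p4 r) := fun r =>
    mul_nonneg (Fm.wn_pos F r) (add_nonneg (dn_nonneg _ _ _) (up_nonneg _ _ _))
  have g1 : ∀ r, D.wn R0 r * (dn p1 p2 r + up p3 p4 r) ≤ D.wn R0 r := fun r => by
    refine mul_le_of_le_one_right (Fm.wn_pos F r) ?_
    rcases le_total r p3 with e | e
    · rw [up_zero P.q3 e, add_zero]; exact dn_le _ _ _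
    · rw [dn_zero P.q1 (P.q2.trans e), zero_add]; exact up_le _ _ _
  have wo := Fm.wn_out (R0 := R0) F (y := 4 * R1) (by linarith [P.R10])
  have go : ∀ r, r ∉ Icc D.r00 (4 * R1) → D.wn R0 r * (dn p1 p2 r + up p3 p4 r) = 0 :=
    fun r hr => by rw [wo r hr, zero_mul]
  have f0 := cx.w1 (wb_tp (bpj_sm κ) (Fm.wn_sm F) (fun _ => bp_nonneg _) (Fm.wn_pos F)
    (bpj_out P.kK) wo) uU (lv0 (l + 1 + 1)) (Fm.cover1 F w16 (by linarith) uU.pos)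
  have v := (u0.add (P.va F)).add (P.vb F)
  have f1 := cx.w3 (wb_tp (tE_sm (κ + 1)) gs (tE_pos _) g0 (tE_out kK) go) (P.v3 F) uU v
    (lv0 (l + 1 + 1)) (Fm.cover F P.R10 P.k3 i w16 g0 g1 v.pos uU.pos fun p s1 s2 s3 => by
      have o1 := u0.pos p
      have o2 := (P.va F).pos p
      have o3 := (P.vb F).pos p
      have o4 := (g1 p.2).trans (Fm.wn_le F _)
      have o5 := Fm.ch_le F p.2
      by_cases c1 : p.2 ≤ r2 + 3 * δ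
      · rw [n0, nh_eq w16 P.d0 (by linarith) (by linarith) c1]; linarith
      by_cases c2 : p.2 ≤ p2
      · have : wa D δ (r2 + 2 * δ) p2 κ p = 1 :=
          bw_one w16 P.d0 (by linarith) (by linarith) (by linarith) c2
        linarith
      by_cases c3 : p3 ≤ p.2
      · have : wa D δ (p3 - δ) (2 * R0 + 1) κ p = 1 :=
          bw_one w16 P.d0 (by linarith) (by linarith) (by linarith) s3
        linarith
      · rw [dn_zero P.q1 (not_le.1 c2).le, up_zero P.q3 (not_le.1 c3).le]; linarith)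
  have v' := u1.add (P.vL F)
  have f2 := cx.w3 (wb_tp (tE_sm (κ + 1)) (Fm.wn_sm F) (tE_pos _) (Fm.wn_pos F) (tE_out kK) wo)
    (P.v3 F) uU v' (lv0 (l + 1)) (Fm.cover F P.R10 P.k3 i w16 (Fm.wn_pos F) (fun _ => le_rfl)
      v'.pos uU.pos fun p s1 s2 s3 => by
      have o1 := u1.pos p
      have o2 := (P.vL F).pos p
      have o4 := Fm.wn_le (R0 := R0) F p.2
      have o5 := Fm.ch_le F p.2
      by_cases c1 : p.2 ≤ r2 + 3 * δ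
      · rw [n1, nh_eq w16 P.d0 (by linarith) (by linarith) c1]; linarith
      · have : wL D δ r2 R0 κ p = 1 := bw_one w16 P.d0 (by linarith) (by linarith)
          (by linarith [P.d0]) (by linarith [P.d1, P.r12])
        linarith)
  have f3 := cx.w3 (a := 1) (b := 1) (c := 1) v u0 (P.va F) (P.vb F) (lv0 (l + 1 + 1))
    fun p => by simp
  have f4 := cx.w2 (a := 1) (b := 1) v' u1 (P.vL F) (lv0 (l + 1)) fun p => by simp
  have z1 := cx.lv_le (l + 1).le_succ (P.v3 F) D.f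
  have z2 := cx.lv_le (l + 1).le_succ uU D.f
  simp only [Dat.bk, Finset.sum_add_distrib]
  rw [cx.sl_sum kK gs g0 go, cx.sl_sum kK (Fm.wn_sm F) (Fm.wn_pos F) wo, Dat.En,
    sl_eq h κ (Fm.wn_sm F)]
  linarith [B.t1]

end Nm

end Vale.Agent.P354PH
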