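import Vale.Agent.P354XT.Jet

/-!
Integrals with weights in t and r, and the terms with a large constant.
-/

open scoped ContDiff
open Set

namespace Vale.Agent.P354PH

open Vale.Agent.P354XT Vale.Agent.P354XI Vale.Agent.P354XI.Ibp

variable {A : Type} [CommRing A] [Algebra ℂ A]

/-- The integral of F with the weight φ (t, r). -/
noncomputable def N (Φ : Fld A) (φ : ℝ × ℝ → ℝ) (F : A) : ℝ := Φ.B.J (Φ.fn φ * F)

/-- Weights with support in the box, between the radii x and y. -/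
structure Wb (D : Dat A) (x y : ℝ) (φ : ℝ × ℝ → ℝ) : Prop where
  sm : ContDiff ℝ ∞ φ
  pos : ∀ p, 0 ≤ φ p
  out : ∀ p, p ∉ Icc D.t1 (D.t1 + D.K + 2) ×ˢ Icc x y → φ p = 0

/-- The ring of fields contains the box up to the radius y. -/
structure Cx (Φ : Fld A) (D : Dat A) (y : ℝ) : Prop where
  is : Φ.Is
  box : Icc D.t1 (D.t1 + D.K + 2) ×ˢ Icc D.r00 y ⊆ Φ.Om

/-- The product of a function of t and a function of r. -/
def tp (e c : ℝ → ℝ) (p : ℝ × ℝ) : ℝ := e p.1 * c p.2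

theorem tp_sm {e c : ℝ → ℝ} (he : ContDiff ℝ ∞ e) (hc : ContDiff ℝ ∞ c) : ContDiff ℝ ∞ (tp e c) :=
  (he.comp contDiff_fst).mul (hc.comp contDiff_snd)

variable {Φ : Fld A} {D : Dat A} {x y : ℝ} {φ ψ χ : ℝ × ℝ → ℝ} {F G H : A}

theorem Wb.mono {x' y' : ℝ} (h : Wb D x y φ) (hx : x' ≤ x) (hy : y ≤ y') : Wb D x' y' φ :=
  ⟨h.sm, h.pos, fun p hp => h.out p fun k => hp ⟨k.1, hx.trans k.2.1, k.2.2.trans hy⟩⟩

theorem Wb.smul (h : Wb D x y φ) {c : ℝ} (hc : 0 ≤ c) : Wb D x y fun p => c * φ p :=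
  ⟨contDiff_const.mul h.sm, fun p => mul_nonneg hc (h.pos p), fun p hp => by
    rw [h.out p hp, mul_zero]⟩

theorem Wb.add (h : Wb D x y φ) (h' : Wb D x y ψ) : Wb D x y fun p => φ p + ψ p :=
  ⟨h.sm.add h'.sm, fun p => add_nonneg (h.pos p) (h'.pos p), fun p hp => by
    rw [h.out p hp, h'.out p hp, add_zero]⟩

theorem Wb.mem (h : Wb D x y φ) {p : ℝ × ℝ} (hp : φ p ≠ 0) :
    p ∈ Icc D.t1 (D.t1 + D.K + 2) ×ˢ Icc x y := by
  by_contra k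
  exact hp (h.out p k)

theorem wb_tp {e c : ℝ → ℝ} (he : ContDiff ℝ ∞ e) (hc : ContDiff ℝ ∞ c) (e0 : ∀ t, 0 ≤ e t)
    (c0 : ∀ r, 0 ≤ c r) (e1 : ∀ t, t ∉ Icc D.t1 (D.t1 + D.K + 2) → e t = 0)
    (c1 : ∀ r, r ∉ Icc x y → c r = 0) : Wb D x y (tp e c) :=
  ⟨tp_sm he hc, fun p => mul_nonneg (e0 _) (c0 _), fun p hp => by
    rcases not_and_or.1 hp with k | k
    · rw [tp, e1 _ k, zero_mul]
    · rw [tp, c1 _ k, mul_zero]⟩

theorem fn_tp (h : Φ.Is) {e c : ℝ → ℝ} (he : ContDiff ℝ ∞ e) (hc : ContDiff ℝ ∞ c) :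
    Φ.fn (tp e c) = Φ.tm e * Φ.rad c :=
  h.mul _ _ (he.comp contDiff_fst) (hc.comp contDiff_snd)

theorem val_fn (h : Φ.Is) (hφ : ContDiff ℝ ∞ φ) (p : Φ.B.Pt) :
    Φ.B.val p (Φ.fn φ) = φ (Φ.pr p) := by rw [val, h.ev _ hφ, Complex.ofReal_re]

theorem val_N (h : Φ.Is) (hφ : ContDiff ℝ ∞ φ) (p : Φ.B.Pt) (F : A) :
    Φ.B.val p (Φ.fn φ * F) = φ (Φ.pr p) * Φ.B.val p F := by
  rw [h.B.val_mul (h.re _ hφ), val_fn h hφ]

theorem N_add (φ : ℝ × ℝ → ℝ) (F G : A) : N Φ φ (F + G) = N Φ φ F + N Φ φ G := by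
  rw [N, mul_add, J_add, N, N]

theorem N_sum {ι : Type} (φ : ℝ × ℝ → ℝ) (s : Finset ι) (F : ι → A) :
    N Φ φ (∑ i ∈ s, F i) = ∑ i ∈ s, N Φ φ (F i) := by simp only [N, Finset.mul_sum, J_sum]

namespace Cx
variable (h : Cx Φ D y)
include h

theorem memK (hφ : Wb D D.r00 y φ) : Φ.fn φ ∈ Φ.B.K :=
  h.is.cs _ (isCompact_Icc.prod isCompact_Icc) h.box _ fun p hp => by
    rw [h.is.ev _ hφ.sm, hφ.out _ hp, Complex.ofReal_zero]

theorem wt (hφ : Wb D D.r00 y φ) : Φ.B.Wt (Φ.fn φ) :=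
  ⟨h.memK hφ, h.is.re _ hφ.sm, fun p => by rw [val_fn h.is hφ.sm]; exact hφ.pos _⟩

/-- Pointwise inequalities can be integrated. -/
theorem le_sum {ι : Type} (s : Finset ι) {c : ι → ℝ} {ψ : ι → ℝ × ℝ → ℝ} {G : ι → A}
    (hφ : Wb D D.r00 y φ) (hψ : ∀ i ∈ s, Wb D D.r00 y (ψ i))
    (e : ∀ p, φ (Φ.pr p) * Φ.B.val p F ≤ ∑ i ∈ s, c i * (ψ i (Φ.pr p) * Φ.B.val p (G i))) :
    N Φ φ F ≤ ∑ i ∈ s, c i * N Φ (ψ i) (G i) := by
  simp only [N, ← J_rl, ← J_sum]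
  refine h.is.B.J_le (Φ.B.K.mul_mem_right _ (h.memK hφ)) (Ideal.sum_mem _ fun i hi =>
    Φ.B.K.mul_mem_left _ (Φ.B.K.mul_mem_right _ (h.memK (hψ i hi)))) fun p => ?_
  rw [val_N h.is hφ.sm, val_sum]
  refine (e p).trans (le_of_eq (Finset.sum_congr rfl fun i hi => ?_))
  rw [h.is.B.val_mul (h.is.B.re_rl _), h.is.B.val_rl, val_N h.is (hψ i hi).sm]

theorem le3 {a b c : ℝ} {ψ' : ℝ × ℝ → ℝ} {G' : A} (hφ : Wb D D.r00 y φ) (h1 : Wb D D.r00 y ψ)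
    (h2 : Wb D D.r00 y ψ') (h3 : Wb D D.r00 y χ)
    (e : ∀ p, φ (Φ.pr p) * Φ.B.val p F ≤ a * (ψ (Φ.pr p) * Φ.B.val p G) +
      b * (ψ' (Φ.pr p) * Φ.B.val p G') + c * (χ (Φ.pr p) * Φ.B.val p H)) :
    N Φ φ F ≤ a * N Φ ψ G + b * N Φ ψ' G' + c * N Φ χ H := by
  have := h.le_sum (Finset.univ : Finset (Fin 3)) (c := ![a, b, c]) (ψ := ![ψ, ψ', χ])
    (G := ![G, G', H]) (F := F) hφ (fun i _ => by fin_cases i <;> assumption) fun p => by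
      simpa only [Fin.sum_univ_three, Matrix.cons_val] using e p
  simpa only [Fin.sum_univ_three, Matrix.cons_val] using this

theorem le2 {a b : ℝ} (hφ : Wb D D.r00 y φ) (h1 : Wb D D.r00 y ψ) (h2 : Wb D D.r00 y χ)
    (e : ∀ p, φ (Φ.pr p) * Φ.B.val p F ≤ a * (ψ (Φ.pr p) * Φ.B.val p G) +
      b * (χ (Φ.pr p) * Φ.B.val p H)) : N Φ φ F ≤ a * N Φ ψ G + b * N Φ χ H := by
  have := h.le3 (F := F) (G := G) (G' := H) (H := H) (a := a) (b := b) (c := 0) hφ h1 h2 h2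
    fun p => by rw [zero_mul, add_zero]; exact e p
  rwa [zero_mul, add_zero] at this

theorem le1 {a : ℝ} (hφ : Wb D D.r00 y φ) (h1 : Wb D D.r00 y ψ)
    (e : ∀ p, φ (Φ.pr p) * Φ.B.val p F ≤ a * (ψ (Φ.pr p) * Φ.B.val p G)) :
    N Φ φ F ≤ a * N Φ ψ G := by
  have := h.le2 (F := F) (G := G) (H := G) (a := a) (b := 0) hφ h1 h1
    fun p => by rw [zero_mul, add_zero]; exact e p
  rwa [zero_mul, add_zero] at this

theorem nonneg (hφ : Wb D D.r00 y φ) (hF : ∀ p, 0 ≤ Φ.B.val p F) : 0 ≤ N Φ φ F := by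
  have := h.le1 (F := 0) (G := F) (a := 1) hφ hφ fun p => by
    rw [val_zero, mul_zero, one_mul]; exact mul_nonneg (hφ.pos _) (hF p)
  rwa [N, mul_zero, J_zero, one_mul] at this

/-- Comparison of weights. -/
theorem w1 {a : ℝ} (hφ : Wb D D.r00 y φ) (h1 : Wb D D.r00 y ψ) (hF : ∀ p, 0 ≤ Φ.B.val p F)
    (e : ∀ p, φ p ≤ a * ψ p) : N Φ φ F ≤ a * N Φ ψ F :=
  h.le1 hφ h1 fun p => by rw [← mul_assoc]; exact mul_le_mul_of_nonneg_right (e _) (hF p)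

theorem w2 {a b : ℝ} (hφ : Wb D D.r00 y φ) (h1 : Wb D D.r00 y ψ) (h2 : Wb D D.r00 y χ)
    (hF : ∀ p, 0 ≤ Φ.B.val p F) (e : ∀ p, φ p ≤ a * ψ p + b * χ p) :
    N Φ φ F ≤ a * N Φ ψ F + b * N Φ χ F :=
  h.le2 hφ h1 h2 fun p => by
    rw [← mul_assoc, ← mul_assoc, ← add_mul]; exact mul_le_mul_of_nonneg_right (e _) (hF p)

theorem w3 {a b c : ℝ} {ψ' : ℝ × ℝ → ℝ} (hφ : Wb D D.r00 y φ) (h1 : Wb D D.r00 y ψ)
    (h2 : Wb D D.r00 y ψ') (h3 : Wb D D.r00 y χ) (hF : ∀ p, 0 ≤ Φ.B.val p F)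
    (e : ∀ p, φ p ≤ a * ψ p + b * ψ' p + c * χ p) :
    N Φ φ F ≤ a * N Φ ψ F + b * N Φ ψ' F + c * N Φ χ F :=
  h.le3 hφ h1 h2 h3 fun p => by
    rw [← mul_assoc, ← mul_assoc, ← mul_assoc, ← add_mul, ← add_mul]
    exact mul_le_mul_of_nonneg_right (e _) (hF p)

theorem lv_le {m m' : ℕ} (hm : m ≤ m') (hφ : Wb D D.r00 y φ) (f : List (Fin 5) → A) :
    N Φ φ (Φ.lv m f) ≤ N Φ φ (Φ.lv m' f) := by
  have := h.le1 (F := Φ.lv m f) (G := Φ.lv m' f) (a := 1) hφ hφ fun p => by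
    rw [one_mul]; exact mul_le_mul_of_nonneg_left (h.is.lv_mono p hm f) (hφ.pos _)
  rwa [one_mul] at this

end Cx

/-- The sum of the first q slab weights. -/
noncomputable def tE (D : Dat A) (q : ℕ) (t : ℝ) : ℝ :=
  Real.smoothTransition (t - D.t1) - Real.smoothTransition (t - D.t1 - q)

theorem tE_eq (q : ℕ) (t : ℝ) : tE D q t = ∑ j ∈ Finset.range q, bp (t - D.t1 - j) := by
  rw [Finset.range_eq_Ico, bp_sum 0 q (Nat.zero_le q), tE, Nat.cast_zero, sub_zero]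

theorem tE_sm (q : ℕ) : ContDiff ℝ ∞ (tE D q) :=
  (Real.smoothTransition.contDiff.comp (contDiff_id.sub contDiff_const)).sub
    (Real.smoothTransition.contDiff.comp ((contDiff_id.sub contDiff_const).sub contDiff_const))

theorem tE_pos (q : ℕ) (t : ℝ) : 0 ≤ tE D q t := by
  rw [tE_eq]; exact Finset.sum_nonneg fun _ _ => bp_nonneg _

theorem tE_le (q : ℕ) (t : ℝ) : tE D q t ≤ 1 := by
  linarith [Real.smoothTransition.le_one (t - D.t1), Real.smoothTransition.nonneg (t - D.t1 - q),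
    show tE D q t = _ - _ from rfl]

theorem tE_out {q : ℕ} (hq : q ≤ D.K + 1) (t : ℝ) (ht : t ∉ Icc D.t1 (D.t1 + D.K + 2)) :
    tE D q t = 0 := by
  have : (q : ℝ) ≤ D.K + 1 := by exact_mod_cast hq
  have q0 : (0 : ℝ) ≤ q := q.cast_nonneg
  rcases not_and_or.1 ht with k | k
  · rw [tE, Real.smoothTransition.zero_of_nonpos (by linarith),
      Real.smoothTransition.zero_of_nonpos (by linarith), sub_zero]
  · rw [tE, Real.smoothTransition.one_of_one_le (by linarith),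
      Real.smoothTransition.one_of_one_le (by linarith), sub_self]

theorem tE_one {q : ℕ} {t : ℝ} (h1 : D.t1 + 1 ≤ t) (h2 : t ≤ D.t1 + q) : tE D q t = 1 := by
  rw [tE, Real.smoothTransition.one_of_one_le (by linarith),
    Real.smoothTransition.zero_of_nonpos (by linarith), sub_zero]

theorem bpj_sm (j : ℕ) : ContDiff ℝ ∞ fun t => bp (t - D.t1 - j) :=
  bp_sm.comp ((contDiff_id.sub contDiff_const).sub contDiff_const)

theorem bpj_out {j : ℕ} (hj : j ≤ D.K) (t : ℝ) (ht : t ∉ Icc D.t1 (D.t1 + D.K + 2)) :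
    bp (t - D.t1 - j) = 0 := by
  have : (j : ℝ) ≤ D.K := by exact_mod_cast hj
  have q0 : (0 : ℝ) ≤ j := j.cast_nonneg
  exact bp_out fun k => ht ⟨by linarith [k.1], by linarith [k.2]⟩

theorem sl_eq (h : Φ.Is) (j : ℕ) {c : ℝ → ℝ} (hc : ContDiff ℝ ∞ c) (F : A) :
    D.sl Φ j c F = N Φ (tp (fun t => bp (t - D.t1 - j)) c) F := by
  rw [N, fn_tp h (bpj_sm j) hc, Dat.sl]

theorem Cx.sl_sum (h : Cx Φ D y) {q : ℕ} (hq : q ≤ D.K + 1) {c : ℝ → ℝ} (hc : ContDiff ℝ ∞ c)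
    (c0 : ∀ r, 0 ≤ c r) (c1 : ∀ r, r ∉ Icc D.r00 y → c r = 0) (F : A) :
    ∑ j ∈ Finset.range q, D.sl Φ j c F = N Φ (tp (tE D q) c) F := by
  have w : ∀ j ∈ Finset.range q, Wb D D.r00 y (tp (fun t => bp (t - D.t1 - j)) c) := fun j hj =>
    wb_tp (bpj_sm j) hc (fun _ => bp_nonneg _) c0
      (bpj_out (by have := Finset.mem_range.1 hj; omega)) c1
  simp only [sl_eq h.is _ hc, N, ← J_sum]
  refine h.is.B.J_congr (Ideal.sum_mem _ fun j hj => Φ.B.K.mul_mem_right _ (h.memK (w j hj)))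
    (Φ.B.K.mul_mem_right _ (h.memK (wb_tp (tE_sm q) hc (tE_pos q) c0 (tE_out hq) c1))) fun p => ?_
  rw [val_sum, val_N h.is (tp_sm (tE_sm q) hc), tp, tE_eq, Finset.sum_mul, Finset.sum_mul]
  exact Finset.sum_congr rfl fun j hj => val_N h.is (w j hj).sm p F

end Vale.Agent.P354PH
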